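import Vale.Agent.P273.D14.H118.Wt2

/-!
Evaluation of the relation of degree two in genus one, for functionals that vanish on most graphs.
-/

noncomputable section
namespace Vale.Agent.P273.D14.H118
open Sum Vale.Agent.P273 Vale.Agent.P273.D14.H18
open scoped Classical
open Alg

variable {V E M : Type}

/-- The placements of the legs at the two vertices with `A false`, `B false` at the vertex `1` and
`A true`, `B true` at the vertex `0`. -/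
def Std [Fintype M] (A B : Bool → M) : Finset (M → Fin 2) :=
  Finset.univ.filter fun ε => ε (A false) = 1 ∧ ε (A true) = 0 ∧ ε (B false) = 1 ∧ ε (B true) = 0

/-- Moreover, the values of the functional. -/
structure Nice2 [Fintype M] (A B : Bool → M) (φ : (Σ k m : ℕ, Gr (Fin k) (Fin m) M) → ℚ) : Prop
    extends Nice A B φ where
  v2k : ∀ {e1 e2 : Fin 2}, e1 ≠ e2 → ∀ ε : M → Fin 2, φ ⟨2, 1, fT3 1 e1 e2 ε none⟩ =
    (((Finset.univ.filter fun x => ε x = 1).card + 1 : ℕ) : ℚ) / 24 * φ ⟨2, 2, fT4 1 1 e1 e2 ε⟩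
  v2x : ∀ {e1 e2 : Fin 2}, e1 ≠ e2 → ∀ (ε : M → Fin 2) (x : M), ε x = 1 →
    φ ⟨2, 1, fT3 1 e1 e2 ε (some (inr x))⟩ = 1 / 24 * φ ⟨2, 2, fT4 1 1 e1 e2 ε⟩
  v2e : ∀ {e1 e2 : Fin 2}, e1 ≠ e2 → ∀ (ε : M → Fin 2) (b : Bool), (if b then e1 else e2) = 1 →
    φ ⟨2, 1, fT3 1 e1 e2 ε (some (inl b))⟩ = 1 / 24 * φ ⟨2, 2, fT4 1 1 e1 e2 ε⟩
  v3 : φ ⟨1, 0, pt1 1 0 (ex2 (A true) (B true))⟩ =
    1 / 24 * ∑ ε ∈ Std A B, φ ⟨2, 2, fT4 1 0 1 0 ε⟩

/-! ### isomorphisms -/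

/-- exchange the two vertices -/
def fl : Fin 2 ≃ Fin 2 := Equiv.swap 0 1

lemma fl0 : fl 0 = 1 := rfl
lemma fl1 : fl 1 = 0 := rfl

lemma relab_iso {k m : ℕ} (G : Gr (Fin k) (Fin m) M) (p : Fin k ≃ Fin k) (q : Fin m ≃ Fin m) :
    G.Iso (G.relab p q) :=
  Gr.Iso.mk' p q (fun v => by simp [Gr.relab]) (fun e s => by simp [Gr.relab]) (fun x => rfl)

lemma relab_fT3 (v e1 e2 : Fin 2) (ε : M → Fin 2) (δ : Option (Bool ⊕ M)) :
    (fT3 v e1 e2 ε δ).relab fl (Equiv.refl _) = fT3 (fl v) (fl e1) (fl e2) (fl ∘ ε) δ := by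
  apply Gr.ext'
  · intro w
    fin_cases v <;> fin_cases w <;> simp [Gr.relab, fT3, fl]
  · rintro (⟨e, s⟩ | x)
    · cases s <;> simp [Gr.relab, fT3]
    · simp [Gr.relab, fT3]

lemma relab_fT4 (e1 e2 e3 e4 : Fin 2) (ε : M → Fin 2) :
    (fT4 e1 e2 e3 e4 ε).relab fl (Equiv.refl _) = fT4 (fl e1) (fl e2) (fl e3) (fl e4) (fl ∘ ε) := by
  apply Gr.ext'
  · intro w
    rfl
  · rintro (⟨e, s⟩ | x)
    · fin_cases e <;> cases s <;> simp [Gr.relab, fT4]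
    · simp [Gr.relab, fT4]

lemma relab_fT4' (e1 e2 e3 e4 : Fin 2) (ε : M → Fin 2) :
    (fT4 e1 e2 e3 e4 ε).relab (Equiv.refl _) fl = fT4 e3 e4 e1 e2 ε := by
  apply Gr.ext'
  · intro w
    rfl
  · rintro (⟨e, s⟩ | x)
    · fin_cases e <;> cases s <;> simp [Gr.relab, fT4, fl]
    · simp [Gr.relab, fT4]

lemma flip1 (e1 e2 e3 e4 : Fin 2) (ε : M → Fin 2) :
    (fT4 e1 e2 e3 e4 ε).Iso (fT4 e2 e1 e3 e4 ε) := by
  refine ⟨id, fun y => if y.1 = 0 then (0, !y.2) else y, Function.bijective_id, ?_, ?_, ?_, ?_⟩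
  · decide
  · decide
  · intro v; rfl
  · rintro (⟨e, s⟩ | x)
    · fin_cases e <;> cases s <;> simp [fT4]
    · simp [fT4]

namespace Nice

variable {A B : Bool → M} {φ : (Σ k m : ℕ, Gr (Fin k) (Fin m) M) → ℚ}

lemma flip1 (H : Nice A B φ) (e1 e2 e3 e4 : Fin 2) (ε : M → Fin 2) :
    φ ⟨2, 2, fT4 e1 e2 e3 e4 ε⟩ = φ ⟨2, 2, fT4 e2 e1 e3 e4 ε⟩ := H.iso (H118.flip1 _ _ _ _ _)

lemma swap4 (H : Nice A B φ) (e1 e2 e3 e4 : Fin 2) (ε : M → Fin 2) :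
    φ ⟨2, 2, fT4 e1 e2 e3 e4 ε⟩ = φ ⟨2, 2, fT4 e3 e4 e1 e2 ε⟩ := by
  rw [← relab_fT4' e1 e2 e3 e4 ε]
  exact H.iso (relab_iso _ _ _)

lemma flip2 (H : Nice A B φ) (e1 e2 e3 e4 : Fin 2) (ε : M → Fin 2) :
    φ ⟨2, 2, fT4 e1 e2 e3 e4 ε⟩ = φ ⟨2, 2, fT4 e1 e2 e4 e3 ε⟩ := by
  rw [H.swap4, H.flip1, H.swap4]

lemma fl4 (H : Nice A B φ) (e1 e2 e3 e4 : Fin 2) (ε : M → Fin 2) :
    φ ⟨2, 2, fT4 e1 e2 e3 e4 ε⟩ = φ ⟨2, 2, fT4 (fl e1) (fl e2) (fl e3) (fl e4) (fl ∘ ε)⟩ := by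
  rw [← relab_fT4 e1 e2 e3 e4 ε]
  exact H.iso (relab_iso _ _ _)

lemma fl3 (H : Nice A B φ) (v e1 e2 : Fin 2) (ε : M → Fin 2) (δ : Option (Bool ⊕ M)) :
    φ ⟨2, 1, fT3 v e1 e2 ε δ⟩ = φ ⟨2, 1, fT3 (fl v) (fl e1) (fl e2) (fl ∘ ε) δ⟩ := by
  rw [← relab_fT3 v e1 e2 ε δ]
  exact H.iso (relab_iso _ _ _)

lemma D4 (H : Nice A B φ) {e1 e2 e3 e4 : Fin 2} (ε : M → Fin 2) (h12 : e1 ≠ e2)
    (h34 : e3 ≠ e4) : φ ⟨2, 2, fT4 e1 e2 e3 e4 ε⟩ = φ ⟨2, 2, fT4 1 0 1 0 ε⟩ := by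
  rcases fin2_ne h12 with ⟨rfl, rfl⟩ | ⟨rfl, rfl⟩ <;>
    rcases fin2_ne h34 with ⟨rfl, rfl⟩ | ⟨rfl, rfl⟩
  · rw [H.flip1, H.flip2]
  · rw [H.flip1]
  · rw [H.flip2]
  · rfl

lemma L4 (H : Nice A B φ) {e3 e4 : Fin 2} (ε : M → Fin 2)
    (h34 : e3 ≠ e4) : φ ⟨2, 2, fT4 1 1 e3 e4 ε⟩ = φ ⟨2, 2, fT4 1 1 1 0 ε⟩ := by
  rcases fin2_ne h34 with ⟨rfl, rfl⟩ | ⟨rfl, rfl⟩
  · rw [H.flip2]
  · rfl

/-- stability is automatic -/
lemma stab (H : Nice A B φ) [Fintype M] (hAB : ∀ i j, A i ≠ B j) {m : ℕ}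
    {G : Gr (Fin 2) (Fin m) M} (hφ : φ ⟨2, m, G⟩ ≠ 0) (e : Fin m)
    (he : (G.hf (inl (e, true))).1 ≠ (G.hf (inl (e, false))).1)
    (hg : (G.dec 0).1 + (G.dec 1).1 + m = 2) : G.Stab 1 := by
  apply stab2 G e he hg
  intro w
  obtain ⟨⟨i, hi⟩, -⟩ := H.sup hφ w
  obtain ⟨-, h2, -⟩ := H.one hφ w
  have h3 : Nonempty {i // (G.hf (inr (B i))).1 = w} := by
    by_contra hcon
    rw [not_nonempty_iff] at hcon
    rw [Nat.card_of_isEmpty] at h2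
    exact absurd h2 (by norm_num)
  obtain ⟨j, hj⟩ := h3
  exact ⟨A i, B j, hAB i j, hi, hj⟩

end Nice

lemma not_stab {m : ℕ} {G : Gr (Fin 2) (Fin m) M} {γ : ℕ}
    (h : ∀ e, (G.hf (inl (e, true))).1 = (G.hf (inl (e, false))).1) : ¬ G.Stab γ := by
  intro hst
  rcases hst.2.1 {0} (fun e => by rw [h e]) with h1 | h1
  · exact Set.singleton_ne_empty _ h1
  · have : (1 : Fin 2) ∈ ({0} : Set (Fin 2)) := by rw [h1]; trivial
    simp at this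

lemma wt_not_stab {m : ℕ} {G : Gr (Fin 2) (Fin m) M} {γ d : ℕ} {a : M → ℕ} (h : ¬ G.Stab γ) :
    wt G γ a d = 0 := by
  by_contra hne
  exact h (wt_ne_zero hne).1

variable [Fintype M] {A B : Bool → M} {φ : (Σ k m : ℕ, Gr (Fin k) (Fin m) M) → ℚ}

lemma QQ_fl (a : M → ℕ) (ε : M → Fin 2) : QQ a (fl ∘ ε) 1 = QQ a ε 0 := by
  unfold QQ
  apply Finset.sum_congr rfl
  intro x _
  have : (fl ∘ ε) x = 1 ↔ ε x = 0 := by
    have : ∀ w, fl w = 1 ↔ w = 0 := by decide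
    exact this _
  simp only [this]

lemma QQ_par {a : M → ℕ} (hp : Even (∑ x, a x)) (ε : M → Fin 2) :
    (-1 : ℚ) ^ QQ a (fl ∘ ε) 1 = (-1) ^ QQ a ε 1 := by
  rw [QQ_fl]
  rw [← QQ_add a ε] at hp
  rcases Nat.even_or_odd (QQ a ε 1) with h | h
  · rw [h.neg_one_pow, ((Nat.even_add.mp hp).mpr h).neg_one_pow]
  · have h0 : Odd (QQ a ε 0) := by
      rw [← Nat.not_even_iff_odd] at h ⊢
      exact fun h' => h ((Nat.even_add.mp hp).mp h')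
    rw [h.neg_one_pow, h0.neg_one_pow]

/-- reindexing by the exchange of the vertices -/
lemma sum_fl (F : (M → Fin 2) → ℚ) : ∑ ε : M → Fin 2, F (fl ∘ ε) = ∑ ε, F ε :=
  Equiv.sum_comp (Equiv.arrowCongr (Equiv.refl M) fl) F

lemma mul_eq_of_ne {w w' x : ℚ} (h : x ≠ 0 → w = w') : w * x = w' * x := by
  by_cases hx : x = 0
  · rw [hx, mul_zero, mul_zero]
  · rw [h hx]

lemma T4_cross (H : Nice A B φ) (hAB : ∀ i j, A i ≠ B j) {a : M → ℕ} (hp : Even (∑ x, a x))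
    {e1 e2 e3 e4 : Fin 2} (h12 : e1 ≠ e2) (h34 : e3 ≠ e4) (ε : M → Fin 2) :
    wt (fT4 e1 e2 e3 e4 ε) 1 a 2 * φ ⟨2, 2, fT4 e1 e2 e3 e4 ε⟩ =
      (144 - 5184 * (-1) ^ QQ a ε 1) * φ ⟨2, 2, fT4 1 0 1 0 ε⟩ := by
  rw [← H.D4 ε h12 h34]
  apply mul_eq_of_ne
  intro hφ
  exact wt_D a ε hp (H.stab hAB hφ 0 (by simpa [fT4] using h12) rfl) h12 h34

lemma T4_loop (H : Nice A B φ) (hAB : ∀ i j, A i ≠ B j) {a : M → ℕ} (hp : Even (∑ x, a x))
    {e1 e3 e4 : Fin 2} (h34 : e3 ≠ e4) (ε : M → Fin 2) :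
    wt (fT4 e1 e1 e3 e4 ε) 1 a 2 * φ ⟨2, 2, fT4 e1 e1 e3 e4 ε⟩ =
      (144 - 864 * (-1) ^ QQ a ε 1) * φ ⟨2, 2, fT4 e1 e1 e3 e4 ε⟩ := by
  apply mul_eq_of_ne
  intro hφ
  exact wt_L a ε hp (H.stab hAB hφ 1 (by simpa [fT4] using h34) rfl) h34

lemma T4_loop' (H : Nice A B φ) (hAB : ∀ i j, A i ≠ B j) {a : M → ℕ} (hp : Even (∑ x, a x))
    {e1 e3 e4 : Fin 2} (h34 : e3 ≠ e4) (ε : M → Fin 2) :
    wt (fT4 e3 e4 e1 e1 ε) 1 a 2 * φ ⟨2, 2, fT4 e3 e4 e1 e1 ε⟩ =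
      (144 - 864 * (-1) ^ QQ a ε 1) * φ ⟨2, 2, fT4 e1 e1 e3 e4 ε⟩ := by
  rw [← H.swap4 e3 e4 e1 e1]
  apply mul_eq_of_ne
  intro hφ
  exact wt_L' a ε hp (H.stab hAB hφ 0 (by simpa [fT4] using h34) rfl) h34

/-- the loop can be moved to the vertex `1` -/
lemma sum_loop (H : Nice A B φ) {a : M → ℕ} (hp : Even (∑ x, a x)) {e1 e3 e4 : Fin 2}
    (h34 : e3 ≠ e4) :
    ∑ ε : M → Fin 2, (144 - 864 * (-1) ^ QQ a ε 1) * φ ⟨2, 2, fT4 e1 e1 e3 e4 ε⟩ =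
      ∑ ε : M → Fin 2, (144 - 864 * (-1) ^ QQ a ε 1) * φ ⟨2, 2, fT4 1 1 1 0 ε⟩ := by
  have h01 : ∀ w : Fin 2, w = 0 ∨ w = 1 := by decide
  rcases h01 e1 with rfl | rfl
  · rw [← sum_fl (fun ε => (144 - 864 * (-1 : ℚ) ^ QQ a ε 1) * φ ⟨2, 2, fT4 1 1 1 0 ε⟩)]
    apply Finset.sum_congr rfl
    intro ε _
    rw [QQ_par hp, H.fl4 0 0 e3 e4 ε, fl0,
      H.L4 (fl ∘ ε) (fun h => h34 (fl.injective h))]
  · apply Finset.sum_congr rfl
    intro ε _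
    rw [H.L4 ε h34]

theorem sum_T4 (H : Nice A B φ) (hAB : ∀ i j, A i ≠ B j) {a : M → ℕ} (hp : Even (∑ x, a x)) :
    ∑ p : Fin 2 × Fin 2 × Fin 2 × Fin 2 × (M → Fin 2),
      wt (fT4 p.1 p.2.1 p.2.2.1 p.2.2.2.1 p.2.2.2.2) 1 a 2 *
        φ ⟨2, 2, fT4 p.1 p.2.1 p.2.2.1 p.2.2.2.1 p.2.2.2.2⟩ =
      4 * ∑ ε : M → Fin 2, (144 - 5184 * (-1) ^ QQ a ε 1) * φ ⟨2, 2, fT4 1 0 1 0 ε⟩ +
      8 * ∑ ε : M → Fin 2, (144 - 864 * (-1) ^ QQ a ε 1) * φ ⟨2, 2, fT4 1 1 1 0 ε⟩ := by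
  set SD := ∑ ε : M → Fin 2, (144 - 5184 * (-1) ^ QQ a ε 1) * φ ⟨2, 2, fT4 1 0 1 0 ε⟩ with hSD
  set SL := ∑ ε : M → Fin 2, (144 - 864 * (-1) ^ QQ a ε 1) * φ ⟨2, 2, fT4 1 1 1 0 ε⟩ with hSL
  have key : ∀ e1 e2 e3 e4 : Fin 2, ∑ ε : M → Fin 2, wt (fT4 e1 e2 e3 e4 ε) 1 a 2 *
      φ ⟨2, 2, fT4 e1 e2 e3 e4 ε⟩ =
      if e1 = e2 then (if e3 = e4 then 0 else SL) else (if e3 = e4 then SL else SD) := by
    intro e1 e2 e3 e4
    split_ifs with h1 h2 h2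
    · subst h1 h2
      apply Finset.sum_eq_zero
      intro ε _
      rw [wt_not_stab (not_stab _), zero_mul]
      intro e
      fin_cases e <;> rfl
    · subst h1
      rw [Finset.sum_congr rfl fun ε _ => T4_loop H hAB hp h2 ε, sum_loop H hp h2]
    · subst h2
      rw [Finset.sum_congr rfl fun ε _ => T4_loop' H hAB hp h1 ε, sum_loop H hp h1]
    · rw [Finset.sum_congr rfl fun ε _ => T4_cross H hAB hp h1 h2 ε]
  simp only [Fintype.sum_prod_type, key, Fin.sum_univ_two, if_true, Fin.isValue, zero_ne_one,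
    one_ne_zero, if_false]
  ring

lemma le_degAt_one {k m : ℕ} (G : Gr (Fin k) (Fin m) M) (y : (Fin m × Bool) ⊕ M) :
    (G.hf y).2 ≤ G.degAt (G.hf y).1 := by
  rw [degAt_fin]
  have h1 : ∑ z ∈ ({y} : Finset ((Fin m × Bool) ⊕ M)),
      (if (G.hf z).1 = (G.hf y).1 then (G.hf z).2 else 0) ≤
      ∑ z, if (G.hf z).1 = (G.hf y).1 then (G.hf z).2 else 0 :=
    Finset.sum_le_sum_of_subset (Finset.subset_univ _)
  rw [Finset.sum_singleton, if_pos rfl] at h1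
  omega

/-- a decoration at the vertex of genus zero -/
lemma Nice.dec_zero (H : Nice A B φ) {m : ℕ} {G : Gr (Fin 2) (Fin m) M}
    (y : (Fin m × Bool) ⊕ M) (hy : (G.dec (G.hf y).1).1 = 0) (h1 : (G.hf y).2 ≠ 0) :
    φ ⟨2, m, G⟩ = 0 := by
  by_contra hφ
  have h2 := (H.one hφ (G.hf y).1).2.2
  have h3 := le_degAt_one G y
  omega

lemma T3_none (H : Nice2 A B φ) (hAB : ∀ i j, A i ≠ B j) {a : M → ℕ} (hp : Even (∑ x, a x))
    {e1 e2 : Fin 2} (h12 : e1 ≠ e2) (ε : M → Fin 2) :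
    wt (fT3 1 e1 e2 ε none) 1 a 2 * φ ⟨2, 1, fT3 1 e1 e2 ε none⟩ =
      (-720 + 4320 * (-1) ^ QQ a ε 1) * ((((Finset.univ.filter fun x => ε x = 1).card + 1 : ℕ) : ℚ)
        / 24 * φ ⟨2, 2, fT4 1 1 1 0 ε⟩) := by
  rw [← H.L4 ε h12, ← H.v2k h12 ε]
  apply mul_eq_of_ne
  intro hφ
  exact wt_3none a ε hp (H.stab hAB hφ 0 (by simpa [fT3] using h12) rfl) h12

lemma T3_inr (H : Nice2 A B φ) (hAB : ∀ i j, A i ≠ B j) {a : M → ℕ} (ha : ∀ x, a x ≤ 1)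
    (hp : Even (∑ x, a x)) {e1 e2 : Fin 2} (h12 : e1 ≠ e2) (ε : M → Fin 2) (x : M) :
    wt (fT3 1 e1 e2 ε (some (inr x))) 1 a 2 * φ ⟨2, 1, fT3 1 e1 e2 ε (some (inr x))⟩ =
      (-12 + 72 * (-1) ^ QQ a ε 1) * (1 / 24 * φ ⟨2, 2, fT4 1 1 1 0 ε⟩) *
        if ε x = 1 then (144 * (a x : ℚ) - 60) else 0 := by
  split_ifs with hx
  · rw [← H.L4 ε h12, ← H.v2x h12 ε x hx]
    have : ∀ w w' z : ℚ, w * w' * z = z * w * w' := by intros; ring
    rw [this]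
    apply mul_eq_of_ne
    intro hφ
    exact wt_3inr ha ε hp x (H.stab hAB hφ 0 (by simpa [fT3] using h12) rfl) h12 hx
  · have hφ : φ ⟨2, 1, fT3 1 e1 e2 ε (some (inr x))⟩ = 0 := by
      apply H.dec_zero (inr x)
      · simp [fT3, hx]
      · simp [fT3]
    rw [hφ, mul_zero, mul_zero]

lemma T3_inl (H : Nice2 A B φ) (hAB : ∀ i j, A i ≠ B j) {a : M → ℕ}
    (hp : Even (∑ x, a x)) {e1 e2 : Fin 2} (h12 : e1 ≠ e2) (ε : M → Fin 2) (b : Bool) :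
    wt (fT3 1 e1 e2 ε (some (inl b))) 1 a 2 * φ ⟨2, 1, fT3 1 e1 e2 ε (some (inl b))⟩ =
      (2520 - 30240 * (-1) ^ QQ a ε 1) * (1 / 24 * φ ⟨2, 2, fT4 1 1 1 0 ε⟩) *
        if (if b then e1 else e2) = 1 then 1 else 0 := by
  by_cases hb : (if b then e1 else e2) = 1
  · rw [if_pos hb, mul_one, ← H.L4 ε h12, ← H.v2e h12 ε b hb]
    apply mul_eq_of_ne
    intro hφ
    exact wt_3inl a ε hp b (H.stab hAB hφ 0 (by simpa [fT3] using h12) rfl) h12 hb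
  · have hφ : φ ⟨2, 1, fT3 1 e1 e2 ε (some (inl b))⟩ = 0 := by
      apply H.dec_zero (inl (0, b))
      · show (if (if b = true then e1 else e2) = 1 then 1 else 0) = 0
        rw [if_neg hb]
      · simp [fT3]
    rw [hφ, mul_zero, if_neg hb, mul_zero]

lemma T3_sum (H : Nice2 A B φ) (hAB : ∀ i j, A i ≠ B j) {a : M → ℕ} (ha : ∀ x, a x ≤ 1)
    (hp : Even (∑ x, a x)) {e1 e2 : Fin 2} (h12 : e1 ≠ e2) (ε : M → Fin 2) :
    ∑ δ : Option (Bool ⊕ M), wt (fT3 1 e1 e2 ε δ) 1 a 2 * φ ⟨2, 1, fT3 1 e1 e2 ε δ⟩ =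
      1 / 24 * (1800 - 25920 * (-1) ^ QQ a ε 1 + (10368 * (-1) ^ QQ a ε 1 - 1728) * QQ a ε 1) *
        φ ⟨2, 2, fT4 1 1 1 0 ε⟩ := by
  rw [Fintype.sum_option, Fintype.sum_sum_type, T3_none H hAB hp h12]
  rw [Finset.sum_congr rfl fun b _ => T3_inl H hAB hp h12 ε b,
    Finset.sum_congr rfl fun x _ => T3_inr H hAB ha hp h12 ε x, ← Finset.mul_sum,
    ← Finset.mul_sum]
  have h1 : ∑ b : Bool, (if (if b then e1 else e2) = 1 then (1 : ℚ) else 0) = 1 := by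
    rw [Fintype.sum_bool]
    rcases fin2_ne h12 with ⟨rfl, rfl⟩ | ⟨rfl, rfl⟩ <;> simp
  have h2 : ∑ x : M, (if ε x = 1 then (144 * (a x : ℚ) - 60) else 0) =
      144 * QQ a ε 1 - 60 * (Finset.univ.filter fun x => ε x = 1).card := by
    unfold QQ
    rw [Finset.card_filter]
    push_cast
    rw [Finset.mul_sum, Finset.mul_sum, ← Finset.sum_sub_distrib]
    apply Finset.sum_congr rfl
    intro x _
    split_ifs <;> simp
  rw [h1, h2]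
  push_cast
  ring

omit [Fintype M] in
lemma wt_fl3 (v e1 e2 : Fin 2) (ε : M → Fin 2) (δ : Option (Bool ⊕ M)) (a : M → ℕ) :
    wt (fT3 v e1 e2 ε δ) 1 a 2 = wt (fT3 (fl v) (fl e1) (fl e2) (fl ∘ ε) δ) 1 a 2 := by
  rw [← relab_fT3 v e1 e2 ε δ, wt_relab]

/-- the total of the graphs with two vertices and one edge -/
theorem sum_T3 (H : Nice2 A B φ) (hAB : ∀ i j, A i ≠ B j) {a : M → ℕ} (ha : ∀ x, a x ≤ 1)
    (hp : Even (∑ x, a x)) :
    ∑ p : Fin 2 × Fin 2 × Fin 2 × (M → Fin 2) × Option (Bool ⊕ M),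
      wt (fT3 p.1 p.2.1 p.2.2.1 p.2.2.2.1 p.2.2.2.2) 1 a 2 *
        φ ⟨2, 1, fT3 p.1 p.2.1 p.2.2.1 p.2.2.2.1 p.2.2.2.2⟩ =
      4 * ∑ ε : M → Fin 2, 1 / 24 * (1800 - 25920 * (-1) ^ QQ a ε 1 +
        (10368 * (-1) ^ QQ a ε 1 - 1728) * QQ a ε 1) * φ ⟨2, 2, fT4 1 1 1 0 ε⟩ := by
  set S := ∑ ε : M → Fin 2, 1 / 24 * (1800 - 25920 * (-1) ^ QQ a ε 1 +
        (10368 * (-1) ^ QQ a ε 1 - 1728) * QQ a ε 1) * φ ⟨2, 2, fT4 1 1 1 0 ε⟩ with hS
  have key1 : ∀ e1 e2 : Fin 2, ∑ ε : M → Fin 2, ∑ δ : Option (Bool ⊕ M),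
      wt (fT3 1 e1 e2 ε δ) 1 a 2 * φ ⟨2, 1, fT3 1 e1 e2 ε δ⟩ = if e1 = e2 then 0 else S := by
    intro e1 e2
    split_ifs with h
    · subst h
      apply Finset.sum_eq_zero
      intro ε _
      apply Finset.sum_eq_zero
      intro δ _
      rw [wt_not_stab (not_stab _), zero_mul]
      intro e
      simp [fT3]
    · rw [Finset.sum_congr rfl fun ε _ => T3_sum H hAB ha hp h ε]
  have key0 : ∀ e1 e2 : Fin 2, ∑ ε : M → Fin 2, ∑ δ : Option (Bool ⊕ M),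
      wt (fT3 0 e1 e2 ε δ) 1 a 2 * φ ⟨2, 1, fT3 0 e1 e2 ε δ⟩ = if e1 = e2 then 0 else S := by
    intro e1 e2
    have h1 := key1 (fl e1) (fl e2)
    simp only [fl.injective.eq_iff] at h1
    rw [← h1, ← sum_fl (fun ε => ∑ δ : Option (Bool ⊕ M), wt (fT3 1 (fl e1) (fl e2) ε δ) 1 a 2 *
      φ ⟨2, 1, fT3 1 (fl e1) (fl e2) ε δ⟩)]
    apply Finset.sum_congr rfl
    intro ε _
    apply Finset.sum_congr rfl
    intro δ _
    rw [wt_fl3, H.fl3, fl0]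
  simp only [Fintype.sum_prod_type, Fin.sum_univ_two, key0, key1]
  simp only [Fin.isValue, if_true, zero_ne_one, one_ne_zero, if_false]
  ring

omit [Fintype M] in
lemma ex2_swapA (hAB : ∀ i j, A i ≠ B j) (j : Bool) :
    swp (A false) (A true) (pt1 1 0 (ex2 (A true) (B j))) = pt1 1 0 (ex2 (A false) (B j)) := by
  apply Gr.ext'
  · intro v; rfl
  · rintro (⟨e, s⟩ | x)
    · exact e.elim0
    · show ((0 : Fin 1), ex2 (A true) (B j) (Equiv.swap (A false) (A true) x)) =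
        (0, ex2 (A false) (B j) x)
      congr 1
      unfold ex2
      have h1 : (Equiv.swap (A false) (A true) x = A true) ↔ x = A false := by
        rw [Equiv.swap_apply_eq_iff, Equiv.swap_apply_right]
      have h2 : (Equiv.swap (A false) (A true) x = B j) ↔ x = B j := by
        rw [Equiv.swap_apply_eq_iff, Equiv.swap_apply_of_ne_of_ne (hAB _ _).symm (hAB _ _).symm]
      rw [h1, h2]

omit [Fintype M] in
lemma ex2_swapB (hAB : ∀ i j, A i ≠ B j) (i : Bool) :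
    swp (B false) (B true) (pt1 1 0 (ex2 (A i) (B true))) = pt1 1 0 (ex2 (A i) (B false)) := by
  apply Gr.ext'
  · intro v; rfl
  · rintro (⟨e, s⟩ | x)
    · exact e.elim0
    · show ((0 : Fin 1), ex2 (A i) (B true) (Equiv.swap (B false) (B true) x)) =
        (0, ex2 (A i) (B false) x)
      congr 1
      unfold ex2
      have h1 : (Equiv.swap (B false) (B true) x = B true) ↔ x = B false := by
        rw [Equiv.swap_apply_eq_iff, Equiv.swap_apply_right]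
      have h2 : (Equiv.swap (B false) (B true) x = A i) ↔ x = A i := by
        rw [Equiv.swap_apply_eq_iff, Equiv.swap_apply_of_ne_of_ne (hAB _ _) (hAB _ _)]
      rw [h1, h2]

lemma wt_T1 (hAB : ∀ i j, A i ≠ B j)
    {a : M → ℕ} (ha : ∀ x, a x ≤ 1) (hp : Even (∑ x, a x)) (i j : Bool) :
    wt (pt1 1 0 (ex2 (A i) (B j))) 1 a 2 = (144 * (a (A i) : ℚ) - 60) * (144 * a (B j) - 60) := by
  have h0 : ∑ x, ex2 (A i) (B j) x = 2 := by
    unfold ex2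
    rw [← Finset.card_filter]
    have : (Finset.univ.filter fun z => z = A i ∨ z = B j) = {A i, B j} := by
      ext z; simp
    rw [this, Finset.card_pair (hAB i j)]
  have h2 : 2 ≤ Fintype.card M := by
    have : ({A i, B j} : Finset M).card ≤ _ := Finset.card_le_univ _
    rwa [Finset.card_pair (hAB i j)] at this
  rw [wt_pt1 1 0 (ex2 (A i) (B j)) a 2 (by rw [Nat.card_eq_fintype_card]; omega)
    (by rw [finsum_eq_sum_of_fintype, h0]; rfl)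
    (by
      rw [finsum_eq_sum_of_fintype]
      have : 1 + 1 + 2 + ∑ x, a x = (∑ x, a x) + 4 := by ring
      rw [this]
      exact hp.add (by decide)), kapF_zero, one_mul, finprod_eq_prod_of_fintype]
  have hc : ∀ x, P273.B (a x) 1 1 = 144 * (a x : ℚ) - 60 := by
    intro x
    have := ha x
    interval_cases h : a x
    · rw [B_zero_one]; push_cast; ring
    · rw [B_one_one]; push_cast; ring
  have h3 : ∀ x, P273.B (a x) 1 (ex2 (A i) (B j) x) =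
      (if x = A i then (144 * (a (A i) : ℚ) - 60) else 1) *
        (if x = B j then (144 * (a (B j) : ℚ) - 60) else 1) := by
    intro x
    unfold ex2
    by_cases h1 : x = A i
    · subst h1
      rw [if_pos (Or.inl rfl), if_pos rfl, if_neg (hAB i j), mul_one, hc]
    · by_cases h2 : x = B j
      · subst h2
        rw [if_pos (Or.inr rfl), if_neg h1, if_pos rfl, one_mul, hc]
      · rw [if_neg (by tauto), if_neg h1, if_neg h2, B_at_zero, one_pow, mul_one]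
  rw [Finset.prod_congr rfl fun x _ => h3 x, Finset.prod_mul_distrib,
    Finset.prod_ite_eq', Finset.prod_ite_eq', if_pos (Finset.mem_univ _),
    if_pos (Finset.mem_univ _)]

theorem sum_T1 (H : Nice2 A B φ) (hAB : ∀ i j, A i ≠ B j)
    {a : M → ℕ} (ha : ∀ x, a x ≤ 1) (hp : Even (∑ x, a x)) (a0 : a (A false) = 0)
    (a1 : a (A true) = 1) (b0 : a (B false) = 0) (b1 : a (B true) = 1) :
    ∑ p : Bool × Bool, wt (pt1 1 0 (ex2 (A p.1) (B p.2))) 1 a 2 *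
      φ ⟨1, 0, pt1 1 0 (ex2 (A p.1) (B p.2))⟩ =
    864 * ∑ ε ∈ Std A B, φ ⟨2, 2, fT4 1 0 1 0 ε⟩ := by
  have hA' : ∀ j, φ ⟨1, 0, pt1 1 0 (ex2 (A false) (B j))⟩ =
      - φ ⟨1, 0, pt1 1 0 (ex2 (A true) (B j))⟩ := by
    intro j
    rw [← ex2_swapA hAB, H.antiA]
  have hB' : ∀ i, φ ⟨1, 0, pt1 1 0 (ex2 (A i) (B false))⟩ =
      - φ ⟨1, 0, pt1 1 0 (ex2 (A i) (B true))⟩ := by
    intro i
    rw [← ex2_swapB hAB, H.antiB]
  simp only [Fintype.sum_prod_type, Fintype.sum_bool, wt_T1 hAB ha hp, a0, a1, b0, b1, hA', hB',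
    H.v3]
  push_cast
  ring

/-- The second difference in the position of the legs. -/
lemma place_aux {A : Bool → M} (g : (M → Fin 2) → ℚ)
    (hg : ∀ ε : M → Fin 2, ε (A false) = ε (A true) → g ε = 0) :
    ∑ ε, g ε = ∑ ε ∈ Finset.univ.filter (fun ε : M → Fin 2 => ε (A false) = 1 ∧ ε (A true) = 0),
      (g ε + g (ε ∘ Equiv.swap (A false) (A true))) := by
  have h1 : ∑ ε ∈ Finset.univ.filter (fun ε : M → Fin 2 => ε (A false) = 1 ∧ ε (A true) = 0),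
      g (ε ∘ Equiv.swap (A false) (A true)) =
      ∑ ε ∈ Finset.univ.filter (fun ε : M → Fin 2 => ε (A false) = 0 ∧ ε (A true) = 1), g ε := by
    refine Finset.sum_bij (fun ε _ => ε ∘ Equiv.swap (A false) (A true)) ?_ ?_ ?_ ?_
    · intro ε hε
      simp only [Finset.mem_filter, Finset.mem_univ, true_and] at hε ⊢
      simp only [Function.comp_apply, Equiv.swap_apply_left, Equiv.swap_apply_right]
      exact ⟨hε.2, hε.1⟩
    · intro ε _ ε' _ h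
      funext x
      have := congrFun h (Equiv.swap (A false) (A true) x)
      simpa using this
    · intro ε hε
      simp only [Finset.mem_filter, Finset.mem_univ, true_and] at hε
      refine ⟨ε ∘ Equiv.swap (A false) (A true), ?_, ?_⟩
      · simp only [Finset.mem_filter, Finset.mem_univ, true_and]
        simp only [Function.comp_apply, Equiv.swap_apply_left, Equiv.swap_apply_right]
        exact ⟨hε.2, hε.1⟩
      · funext x
        simp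
    · intro ε _
      rfl
  rw [Finset.sum_add_distrib, h1, ← Finset.sum_union]
  · symm
    apply Finset.sum_subset (Finset.subset_univ _)
    intro ε _ hε
    apply hg
    simp only [Finset.mem_union, Finset.mem_filter, Finset.mem_univ, true_and, not_or] at hε
    have : ∀ p q : Fin 2, ¬ (p = 1 ∧ q = 0) → ¬ (p = 0 ∧ q = 1) → p = q := by decide
    exact this _ _ hε.1 hε.2
  · rw [Finset.disjoint_filter]
    rintro ε _ ⟨h2, _⟩ ⟨h3, _⟩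
    rw [h2] at h3
    exact absurd h3 (by decide)

/-- `QQ` after an exchange of two legs -/
lemma QQ_swap (a : M → ℕ) (ε : M → Fin 2) {x y : M} (hxy : x ≠ y) (ax : a x = 0) (ay : a y = 1)
    (hx : ε x = 1) (hy : ε y = 0) : QQ a (ε ∘ Equiv.swap x y) 1 = QQ a ε 1 + 1 := by
  unfold QQ
  have h1 : ∀ (f : M → ℕ), ∑ z, f z = f x + f y + ∑ z ∈ (Finset.univ.erase x).erase y, f z := by
    intro f
    rw [← Finset.add_sum_erase _ f (Finset.mem_univ x),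
      ← Finset.add_sum_erase _ f (Finset.mem_erase.mpr ⟨hxy.symm, Finset.mem_univ y⟩)]
    ring
  rw [h1, h1]
  simp only [Function.comp_apply, Equiv.swap_apply_left, Equiv.swap_apply_right, hx, hy, ax, ay]
  have h2 : ∑ z ∈ (Finset.univ.erase x).erase y, (if ε (Equiv.swap x y z) = 1 then a z else 0) =
      ∑ z ∈ (Finset.univ.erase x).erase y, (if ε z = 1 then a z else 0) := by
    apply Finset.sum_congr rfl
    intro z hz
    rw [Finset.mem_erase, Finset.mem_erase] at hz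
    rw [Equiv.swap_apply_of_ne_of_ne hz.2.1 hz.1]
  rw [h2]
  simp
  ring

omit [Fintype M] in
lemma comp_swap_eq {ε : M → Fin 2} {x y : M} (h : ε x = ε y) : ε ∘ Equiv.swap x y = ε := by
  funext z
  simp only [Function.comp_apply]
  by_cases h1 : z = x
  · subst h1; rw [Equiv.swap_apply_left, h]
  by_cases h2 : z = y
  · subst h2; rw [Equiv.swap_apply_right, h]
  rw [Equiv.swap_apply_of_ne_of_ne h1 h2]

lemma place (hA : A false ≠ A true) (hB : B false ≠ B true) (hAB : ∀ i j, A i ≠ B j)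
    {a : M → ℕ} (a0 : a (A false) = 0)
    (a1 : a (A true) = 1) (b0 : a (B false) = 0) (b1 : a (B true) = 1)
    (ψ : (M → Fin 2) → ℚ) (hψA : ∀ ε, ψ (ε ∘ Equiv.swap (A false) (A true)) = - ψ ε)
    (hψB : ∀ ε, ψ (ε ∘ Equiv.swap (B false) (B true)) = - ψ ε) (c : ℕ → ℚ) :
    ∑ ε : M → Fin 2, c (QQ a ε 1) * ψ ε = ∑ ε ∈ Std A B,
      (c (QQ a ε 1) - 2 * c (QQ a ε 1 + 1) + c (QQ a ε 1 + 2)) * ψ ε := by
  rw [place_aux (A := A) (fun ε => c (QQ a ε 1) * ψ ε)]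
  swap
  · intro ε hε
    have := hψA ε
    rw [comp_swap_eq hε] at this
    have h0 : ψ ε = 0 := by linarith
    simp only [h0, mul_zero]
  have h1 : ∑ ε ∈ Finset.univ.filter (fun ε : M → Fin 2 => ε (A false) = 1 ∧ ε (A true) = 0),
      (c (QQ a ε 1) * ψ ε + c (QQ a (ε ∘ Equiv.swap (A false) (A true)) 1) *
        ψ (ε ∘ Equiv.swap (A false) (A true))) =
      ∑ ε : M → Fin 2, (if ε (A false) = 1 ∧ ε (A true) = 0 then
        (c (QQ a ε 1) - c (QQ a ε 1 + 1)) * ψ ε else 0) := by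
    rw [Finset.sum_filter]
    apply Finset.sum_congr rfl
    intro ε _
    split_ifs with h
    · rw [hψA, QQ_swap a ε hA a0 a1 h.1 h.2]
      ring
    · rfl
  rw [h1, place_aux (A := B)]
  swap
  · intro ε hε
    have := hψB ε
    rw [comp_swap_eq hε] at this
    have h0 : ψ ε = 0 := by linarith
    simp only [h0, mul_zero, ite_self]
  unfold Std
  rw [Finset.sum_filter, Finset.sum_filter]
  apply Finset.sum_congr rfl
  intro ε _
  by_cases hb : ε (B false) = 1 ∧ ε (B true) = 0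
  · rw [if_pos hb]
    have e1 : ∀ i, (ε ∘ Equiv.swap (B false) (B true)) (A i) = ε (A i) := by
      intro i
      simp only [Function.comp_apply]
      rw [Equiv.swap_apply_of_ne_of_ne (hAB _ _) (hAB _ _)]
    rw [e1, e1, hψB, QQ_swap a ε hB b0 b1 hb.1 hb.2]
    by_cases ha : ε (A false) = 1 ∧ ε (A true) = 0
    · rw [if_pos ha, if_pos ha, if_pos ⟨ha.1, ha.2, hb.1, hb.2⟩]
      ring
    · rw [if_neg ha, if_neg ha, if_neg (fun h => ha ⟨h.1, h.2.1⟩), add_zero]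
  · rw [if_neg hb, if_neg (fun h => hb ⟨h.2.2.1, h.2.2.2⟩)]

omit [Fintype M] in
lemma swp_fT4 (x y : M) (e1 e2 e3 e4 : Fin 2) (ε : M → Fin 2) :
    swp x y (fT4 e1 e2 e3 e4 ε) = fT4 e1 e2 e3 e4 (ε ∘ Equiv.swap x y) := by
  apply Gr.ext'
  · intro v; rfl
  · rintro (z | z)
    · rfl
    · rfl

/-- **Evaluation of the relation of degree two in genus one** at a vertex with two legs of each
colour. -/
theorem eval_two (H : Nice2 A B φ) (hA : A false ≠ A true) (hB : B false ≠ B true)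
    (hAB : ∀ i j, A i ≠ B j) {a : M → ℕ} (ha : ∀ x, a x ≤ 1) (hp : Even (∑ x, a x))
    (a0 : a (A false) = 0) (a1 : a (A true) = 1) (b0 : a (B false) = 0) (b1 : a (B true) = 1) :
    ∑ p ∈ supp 1 a 2, (wt p.2.2 1 a 2 / (p.1.factorial * p.2.1.factorial * 2 ^ p.2.1)) * φ p =
      864 * ∑ ε ∈ Std A B, ((1 - 6 * (-1) ^ QQ a ε 1) * φ ⟨2, 2, fT4 1 0 1 0 ε⟩ +
        (-1) ^ QQ a ε 1 * (2 * QQ a ε 1 - 5) * φ ⟨2, 2, fT4 1 1 1 0 ε⟩) := by
  rw [sum_form H.toNice hA hB hAB, Fintype.sum_sum_type, Fintype.sum_sum_type]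
  have f1 : ∑ p : Bool × Bool, (wt (form A B (inl p)).2.2 1 a 2 /
      ((form A B (inl p)).1.factorial * (form A B (inl p)).2.1.factorial *
      2 ^ (form A B (inl p)).2.1)) * φ (form A B (inl p)) =
      864 * ∑ ε ∈ Std A B, φ ⟨2, 2, fT4 1 0 1 0 ε⟩ := by
    rw [← sum_T1 H hAB ha hp a0 a1 b0 b1]
    apply Finset.sum_congr rfl
    intro p _
    simp [form]
  have f3 : ∑ p : Fin 2 × Fin 2 × Fin 2 × (M → Fin 2) × Option (Bool ⊕ M),
      (wt (form A B (inr (inl p))).2.2 1 a 2 /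
      ((form A B (inr (inl p))).1.factorial * (form A B (inr (inl p))).2.1.factorial *
      2 ^ (form A B (inr (inl p))).2.1)) * φ (form A B (inr (inl p))) =
      ∑ ε : M → Fin 2, 1 / 24 * (1800 - 25920 * (-1) ^ QQ a ε 1 +
        (10368 * (-1) ^ QQ a ε 1 - 1728) * QQ a ε 1) * φ ⟨2, 2, fT4 1 1 1 0 ε⟩ := by
    have := sum_T3 H hAB ha hp
    rw [← mul_right_inj' (four_ne_zero' ℚ), ← this, Finset.mul_sum]
    apply Finset.sum_congr rfl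
    intro p _
    simp [form]
    ring
  have f4 : ∑ p : Fin 2 × Fin 2 × Fin 2 × Fin 2 × (M → Fin 2),
      (wt (form A B (inr (inr p))).2.2 1 a 2 /
      ((form A B (inr (inr p))).1.factorial * (form A B (inr (inr p))).2.1.factorial *
      2 ^ (form A B (inr (inr p))).2.1)) * φ (form A B (inr (inr p))) =
      1 / 4 * ∑ ε : M → Fin 2, (144 - 5184 * (-1) ^ QQ a ε 1) * φ ⟨2, 2, fT4 1 0 1 0 ε⟩ +
      1 / 2 * ∑ ε : M → Fin 2, (144 - 864 * (-1) ^ QQ a ε 1) * φ ⟨2, 2, fT4 1 1 1 0 ε⟩ := by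
    have := sum_T4 H.toNice hAB hp
    have h16 : (16 : ℚ) ≠ 0 := by norm_num
    rw [← mul_right_inj' h16, mul_add, ← mul_assoc, ← mul_assoc]
    norm_num
    rw [← this, Finset.mul_sum]
    apply Finset.sum_congr rfl
    intro p _
    simp [form]
    ring
  have hψA : ∀ (e1 e2 e3 e4 : Fin 2) (ε : M → Fin 2),
      φ ⟨2, 2, fT4 e1 e2 e3 e4 (ε ∘ Equiv.swap (A false) (A true))⟩ =
      - φ ⟨2, 2, fT4 e1 e2 e3 e4 ε⟩ := by
    intro e1 e2 e3 e4 ε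
    rw [← swp_fT4, H.antiA]
  have hψB : ∀ (e1 e2 e3 e4 : Fin 2) (ε : M → Fin 2),
      φ ⟨2, 2, fT4 e1 e2 e3 e4 (ε ∘ Equiv.swap (B false) (B true))⟩ =
      - φ ⟨2, 2, fT4 e1 e2 e3 e4 ε⟩ := by
    intro e1 e2 e3 e4 ε
    rw [← swp_fT4, H.antiB]
  have p1 := place hA hB hAB a0 a1 b0 b1 (fun ε => φ ⟨2, 2, fT4 1 0 1 0 ε⟩)
    (hψA 1 0 1 0) (hψB 1 0 1 0) (fun n => 144 - 5184 * (-1) ^ n)
  have p2 := place hA hB hAB a0 a1 b0 b1 (fun ε => φ ⟨2, 2, fT4 1 1 1 0 ε⟩)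
    (hψA 1 1 1 0) (hψB 1 1 1 0) (fun n => 144 - 864 * (-1) ^ n)
  have p3 := place hA hB hAB a0 a1 b0 b1 (fun ε => φ ⟨2, 2, fT4 1 1 1 0 ε⟩)
    (hψA 1 1 1 0) (hψB 1 1 1 0) (fun n => 1 / 24 * (1800 - 25920 * (-1) ^ n +
        (10368 * (-1) ^ n - 1728) * n))

  rw [f1, f3, f4, p1, p2, p3]
  simp only [Finset.mul_sum]
  rw [← Finset.sum_add_distrib, ← Finset.sum_add_distrib, ← Finset.sum_add_distrib]
  apply Finset.sum_congr rfl
  intro ε _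
  push_cast
  rw [pow_succ, pow_succ]
  ring

end Vale.Agent.P273.D14.H118
end
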