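import Vale.Agent.P273.D14.H18.EvalOne

/-!
The relation of degree two in genus one, for functionals that vanish on most graphs.
-/

noncomputable section
namespace Vale.Agent.P273.D14.H118
open Sum Vale.Agent.P273 Vale.Agent.P273.D14.H18
open scoped Classical
open Alg

variable {V E M : Type}

/-- Two vertices and one edge with ends `e1`, `e2`; the vertex `v` has genus one, the other one
genus zero; the decoration of degree one is a kappa class at `v` (`δ = none`), or a psi class at a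
side of the edge, or a psi class at a leg. -/
def fT3 (v e1 e2 : Fin 2) (ε : M → Fin 2) (δ : Option (Bool ⊕ M)) : Gr (Fin 2) (Fin 1) M :=
  ⟨fun w => (if w = v then 1 else 0, if w = v ∧ δ = none then {1} else 0),
   Sum.elim (fun y => (if y.2 then e1 else e2, if δ = some (inl y.2) then 1 else 0))
     (fun x => (ε x, if δ = some (inr x) then 1 else 0))⟩

/-- Two vertices of genus zero and two edges, no decorations. -/
def fT4 (e1 e2 e3 e4 : Fin 2) (ε : M → Fin 2) : Gr (Fin 2) (Fin 2) M :=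
  ⟨fun _ => (0, 0), Sum.elim (fun y => (if y.1 = 0 then (if y.2 then e1 else e2) else
    (if y.2 then e3 else e4), 0)) (fun x => (ε x, 0))⟩

/-- the exponents: psi classes at `x` and `y` -/
def ex2 (x y : M) : M → ℕ := fun z => if z = x ∨ z = y then 1 else 0

abbrev Form (M : Type) : Type := (Bool × Bool) ⊕
  ((Fin 2 × Fin 2 × Fin 2 × (M → Fin 2) × Option (Bool ⊕ M)) ⊕
    (Fin 2 × Fin 2 × Fin 2 × Fin 2 × (M → Fin 2)))

/-- the labelled graphs -/
def form (A B : Bool → M) : Form M → Σ k m : ℕ, Gr (Fin k) (Fin m) M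
  | inl p => ⟨1, 0, pt1 1 0 (ex2 (A p.1) (B p.2))⟩
  | inr (inl p) => ⟨2, 1, fT3 p.1 p.2.1 p.2.2.1 p.2.2.2.1 p.2.2.2.2⟩
  | inr (inr p) => ⟨2, 2, fT4 p.1 p.2.1 p.2.2.1 p.2.2.2.1 p.2.2.2.2⟩

lemma fT3_inj {v e1 e2 v' e1' e2' : Fin 2} {ε ε' : M → Fin 2} {δ δ' : Option (Bool ⊕ M)}
    (h : fT3 v e1 e2 ε δ = fT3 v' e1' e2' ε' δ') :
    v = v' ∧ e1 = e1' ∧ e2 = e2' ∧ ε = ε' ∧ δ = δ' := by
  have h0 : ∀ w, (fT3 v e1 e2 ε δ).dec w = (fT3 v' e1' e2' ε' δ').dec w := by rw [h]; simp
  have h1 : ∀ y, (fT3 v e1 e2 ε δ).hf y = (fT3 v' e1' e2' ε' δ').hf y := by rw [h]; simp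
  have hv : v = v' := by
    have := congrArg Prod.fst (h0 v)
    simp only [fT3, if_true] at this
    by_contra hne
    rw [if_neg hne] at this
    exact one_ne_zero this
  subst hv
  refine ⟨rfl, ?_, ?_, ?_, ?_⟩
  · have := congrArg Prod.fst (h1 (inl (0, true)))
    simpa [fT3] using this
  · have := congrArg Prod.fst (h1 (inl (0, false)))
    simpa [fT3] using this
  · funext x
    exact congrArg Prod.fst (h1 (inr x))
  · rcases δ with _ | s | x
    · have h2 := congrArg Prod.snd (h0 v)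
      simp only [fT3] at h2
      by_contra hne
      have : ¬ (True ∧ δ' = none) := fun h => hne h.2.symm
      rw [if_neg this] at h2
      simp at h2
    · have h2 := congrArg Prod.snd (h1 (inl (0, s)))
      simp only [fT3, Sum.elim_inl, if_true] at h2
      by_contra hne
      rw [if_neg (Ne.symm hne)] at h2
      exact one_ne_zero h2
    · have h2 := congrArg Prod.snd (h1 (inr x))
      simp only [fT3, Sum.elim_inr, if_true] at h2
      by_contra hne
      rw [if_neg (Ne.symm hne)] at h2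
      exact one_ne_zero h2

lemma fT4_inj {e1 e2 e3 e4 e1' e2' e3' e4' : Fin 2} {ε ε' : M → Fin 2}
    (h : fT4 e1 e2 e3 e4 ε = fT4 e1' e2' e3' e4' ε') :
    e1 = e1' ∧ e2 = e2' ∧ e3 = e3' ∧ e4 = e4' ∧ ε = ε' := by
  have h1 : ∀ y, (fT4 e1 e2 e3 e4 ε).hf y = (fT4 e1' e2' e3' e4' ε').hf y := by rw [h]; simp
  refine ⟨?_, ?_, ?_, ?_, ?_⟩
  · simpa [fT4] using congrArg Prod.fst (h1 (inl (0, true)))
  · simpa [fT4] using congrArg Prod.fst (h1 (inl (0, false)))
  · simpa [fT4] using congrArg Prod.fst (h1 (inl (1, true)))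
  · simpa [fT4] using congrArg Prod.fst (h1 (inl (1, false)))
  · funext x
    exact congrArg Prod.fst (h1 (inr x))

lemma form_inj {A B : Bool → M} (hA : A false ≠ A true) (hB : B false ≠ B true)
    (hAB : ∀ i j, A i ≠ B j) : (form A B).Injective := by
  rintro (⟨i, j⟩ | ⟨v, e1, e2, ε, δ⟩ | ⟨e1, e2, e3, e4, ε⟩)
    (⟨i', j'⟩ | ⟨v', e1', e2', ε', δ'⟩ | ⟨e1', e2', e3', e4', ε'⟩) h
  · simp only [form, Sigma.mk.injEq, heq_eq_eq, true_and] at h
    have h1 := (pt1_inj h).2.2
    have hi : i = i' := by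
      have h2 := congrFun h1 (A i)
      simp only [ex2, true_or, if_true] at h2
      by_contra hne
      have h3 : ¬ (A i = A i' ∨ A i = B j') := by
        rintro (h4 | h4)
        · apply hne
          cases i <;> cases i'
          · rfl
          · exact absurd h4 hA
          · exact absurd h4.symm hA
          · rfl
        · exact hAB _ _ h4
      rw [if_neg h3] at h2
      exact one_ne_zero h2
    have hj : j = j' := by
      have h2 := congrFun h1 (B j)
      simp only [ex2, or_true, if_true] at h2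
      by_contra hne
      have h3 : ¬ (B j = A i' ∨ B j = B j') := by
        rintro (h4 | h4)
        · exact hAB _ _ h4.symm
        · apply hne
          cases j <;> cases j'
          · rfl
          · exact absurd h4 hB
          · exact absurd h4.symm hB
          · rfl
      rw [if_neg h3] at h2
      exact one_ne_zero h2
    rw [hi, hj]
  · simp [form] at h
  · simp [form] at h
  · simp [form] at h
  · simp only [form, Sigma.mk.injEq, heq_eq_eq, true_and] at h
    obtain ⟨rfl, rfl, rfl, rfl, rfl⟩ := fT3_inj h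
    rfl
  · simp [form] at h
  · simp [form] at h
  · simp [form] at h
  · simp only [form, Sigma.mk.injEq, heq_eq_eq, true_and] at h
    obtain ⟨rfl, rfl, rfl, rfl, rfl⟩ := fT4_inj h
    rfl

/-- exchange two legs -/
def swp (x y : M) (G : Gr V E M) : Gr V E M := ⟨G.dec, fun z => G.hf (z.map id (Equiv.swap x y))⟩

lemma swp_eq {x y : M} {G : Gr V E M} (h : G.hf (inr x) = G.hf (inr y)) : swp x y G = G := by
  apply Gr.ext'
  · intro v; rfl
  · rintro (z | z)
    · rfl
    · show G.hf (inr (Equiv.swap x y z)) = G.hf (inr z)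
      by_cases h1 : z = x
      · subst h1; rw [Equiv.swap_apply_left, h]
      by_cases h2 : z = y
      · subst h2; rw [Equiv.swap_apply_right, h]
      rw [Equiv.swap_apply_of_ne_of_ne h1 h2]

/-- The properties of the functional (on graphs inserted at a vertex of genus one with two legs
`A false`, `A true` of the first colour and two legs `B false`, `B true` of the second colour). -/
structure Nice (A B : Bool → M) (φ : (Σ k m : ℕ, Gr (Fin k) (Fin m) M) → ℚ) : Prop where
  iso : ∀ {k m : ℕ} {G G' : Gr (Fin k) (Fin m) M}, G.Iso G' → φ ⟨k, m, G⟩ = φ ⟨k, m, G'⟩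
  sup : ∀ {k m : ℕ} {G : Gr (Fin k) (Fin m) M}, φ ⟨k, m, G⟩ ≠ 0 → ∀ w,
    (∃ i, (G.hf (inr (A i))).1 = w) ∧
    Nat.card {i // (G.hf (inr (A i))).1 = w} = Nat.card {j // (G.hf (inr (B j))).1 = w} ∧
    G.degAt w + 1 = Nat.card {i // (G.hf (inr (A i))).1 = w} + (G.dec w).1
  antiA : ∀ {k m : ℕ} (G : Gr (Fin k) (Fin m) M),
    φ ⟨k, m, swp (A false) (A true) G⟩ = - φ ⟨k, m, G⟩
  antiB : ∀ {k m : ℕ} (G : Gr (Fin k) (Fin m) M),
    φ ⟨k, m, swp (B false) (B true) G⟩ = - φ ⟨k, m, G⟩

namespace Nice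

variable {A B : Bool → M} {φ : (Σ k m : ℕ, Gr (Fin k) (Fin m) M) → ℚ}

lemma neA (H : Nice A B φ) {k m : ℕ} {G : Gr (Fin k) (Fin m) M} (h : φ ⟨k, m, G⟩ ≠ 0) :
    G.hf (inr (A false)) ≠ G.hf (inr (A true)) := by
  intro h1
  have := H.antiA G
  rw [swp_eq h1] at this
  exact h (by linarith)

lemma neB (H : Nice A B φ) {k m : ℕ} {G : Gr (Fin k) (Fin m) M} (h : φ ⟨k, m, G⟩ ≠ 0) :
    G.hf (inr (B false)) ≠ G.hf (inr (B true)) := by
  intro h1
  have := H.antiB G
  rw [swp_eq h1] at this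
  exact h (by linarith)

end Nice

lemma degAt_fin [Fintype M] {k m : ℕ} (G : Gr (Fin k) (Fin m) M) (w : Fin k) :
    G.degAt w = (G.dec w).2.sum + ∑ y, if (G.hf y).1 = w then (G.hf y).2 else 0 := by
  rw [degAt_eq, psi_eq_finsum, finsum_eq_sum_of_fintype]
  congr 1
  apply Finset.sum_congr rfl
  intro y _
  split_ifs <;> rfl

lemma le_degAt_two [Fintype M] {k m : ℕ} (G : Gr (Fin k) (Fin m) M) (w : Fin k)
    {x y : M} (hxy : x ≠ y) (hx : (G.hf (inr x)).1 = w) (hy : (G.hf (inr y)).1 = w) :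
    (G.hf (inr x)).2 + (G.hf (inr y)).2 ≤ G.degAt w := by
  rw [degAt_fin]
  have h1 : ∑ z ∈ ({inr x, inr y} : Finset ((Fin m × Bool) ⊕ M)),
      (if (G.hf z).1 = w then (G.hf z).2 else 0) ≤
      ∑ z, if (G.hf z).1 = w then (G.hf z).2 else 0 :=
    Finset.sum_le_sum_of_subset (Finset.subset_univ _)
  rw [Finset.sum_pair (by simpa using hxy), if_pos hx, if_pos hy] at h1
  omega

lemma fin1_card {A : Bool → M} {m : ℕ} (G : Gr (Fin 1) (Fin m) M) (w : Fin 1) :
    Nat.card {i // (G.hf (inr (A i))).1 = w} = 2 := by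
  have : ∀ i, (G.hf (inr (A i))).1 = w := fun i => Subsingleton.elim _ _
  rw [Nat.card_congr (Equiv.subtypeUnivEquiv this)]
  simp

lemma stab_fin {k m : ℕ} {G : Gr (Fin k) (Fin m) M} {γ : ℕ} (h : G.Stab γ) :
    ∑ v, (G.dec v).1 + m + 1 = γ + k := by
  have := h.2.2.1
  rw [finsum_eq_sum_of_fintype, Nat.card_eq_fintype_card, Nat.card_eq_fintype_card,
    Fintype.card_fin, Fintype.card_fin] at this
  exact this

variable {A B : Bool → M} {φ : (Σ k m : ℕ, Gr (Fin k) (Fin m) M) → ℚ}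

lemma form_k1 [Fintype M] (H : Nice A B φ) (hAB : ∀ i j, A i ≠ B j) {a : M → ℕ} {m : ℕ}
    (G : Gr (Fin 1) (Fin m) M) (h : wt G 1 a 2 ≠ 0) (hφ : φ ⟨1, m, G⟩ ≠ 0) :
    (⟨1, m, G⟩ : Σ k m : ℕ, Gr (Fin k) (Fin m) M) ∈ Set.range (form A B) := by
  obtain ⟨h1, h2, h3⟩ := wt_ne_zero h
  have h4 := stab_fin h1
  rw [Fin.sum_univ_one] at h4
  obtain ⟨-, -, h5⟩ := H.sup hφ 0
  rw [fin1_card] at h5
  have h6 := sum_degAt G
  rw [Fin.sum_univ_one, h2, Nat.card_eq_fintype_card, Fintype.card_fin] at h6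
  have hA := H.neA hφ
  have hB := H.neB hφ
  have h7 : ∃ i, 1 ≤ (G.hf (inr (A i))).2 := by
    by_contra hcon
    push Not at hcon
    apply hA
    have e1 := hcon false
    have e2 := hcon true
    exact Prod.ext (Subsingleton.elim _ _) (by omega)
  have h8 : ∃ j, 1 ≤ (G.hf (inr (B j))).2 := by
    by_contra hcon
    push Not at hcon
    apply hB
    have e1 := hcon false
    have e2 := hcon true
    exact Prod.ext (Subsingleton.elim _ _) (by omega)
  obtain ⟨i, hi⟩ := h7
  obtain ⟨j, hj⟩ := h8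
  have h9 := le_degAt_two G 0 (hAB i j) (Subsingleton.elim _ _) (Subsingleton.elim _ _)
  have hm : m = 0 := by omega
  subst hm
  have h10 := degAt_fin G 0
  rw [Fintype.sum_sum_type] at h10
  simp only [Finset.univ_eq_empty, Finset.sum_empty, zero_add] at h10
  have h11 : ∀ x : M, (G.hf (inr x)).1 = 0 := fun x => Subsingleton.elim _ _
  simp only [h11, if_true] at h10
  have h12 : ∑ x ∈ ({A i, B j} : Finset M), (G.hf (inr x)).2 +
      ∑ x ∈ Finset.univ \ {A i, B j}, (G.hf (inr x)).2 = ∑ x, (G.hf (inr x)).2 := by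
    rw [add_comm]
    exact Finset.sum_sdiff (Finset.subset_univ _)
  rw [Finset.sum_pair (hAB i j)] at h12
  refine ⟨inl (i, j), ?_⟩
  simp only [form]
  rw [eq_pt1 G]
  have e1 : (G.dec 0).1 = 1 := by omega
  have e2 : (G.dec 0).2 = 0 := mul_zero_of (h3 0) (by omega)
  have e3 : (fun x => (G.hf (inr x)).2) = ex2 (A i) (B j) := by
    funext x
    unfold ex2
    by_cases hx : x = A i ∨ x = B j
    · rw [if_pos hx]
      rcases hx with rfl | rfl
      · omega
      · omega
    · rw [if_neg hx]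
      have h13 : ∑ x ∈ Finset.univ \ {A i, B j}, (G.hf (inr x)).2 = 0 := by omega
      exact (Finset.sum_eq_zero_iff.mp h13) x (by simpa using hx)
  rw [e1, e2, e3]

lemma sum_one {ι : Type*} [Fintype ι] (f : ι → ℕ) (h : ∑ y, f y = 1) :
    ∃ y, f y = 1 ∧ ∀ z, z ≠ y → f z = 0 := by
  obtain ⟨y, -, hy⟩ : ∃ y ∈ Finset.univ, f y ≠ 0 := by
    by_contra hcon
    push Not at hcon
    rw [Finset.sum_eq_zero hcon] at h
    exact absurd h (by norm_num)
  have h1 := Finset.add_sum_erase Finset.univ f (Finset.mem_univ y)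
  refine ⟨y, by omega, ?_⟩
  intro z hz
  have h2 : ∑ x ∈ Finset.univ.erase y, f x = 0 := by omega
  exact (Finset.sum_eq_zero_iff.mp h2) z (Finset.mem_erase.mpr ⟨hz, Finset.mem_univ z⟩)

lemma fin2_one : ∀ g : Bool → Fin 2, (∀ w, ∃ i, g i = w) →
    ∀ w, Fintype.card {i // g i = w} = 1 := by decide

lemma Nice.one (H : Nice A B φ) {m : ℕ} {G : Gr (Fin 2) (Fin m) M} (hφ : φ ⟨2, m, G⟩ ≠ 0)
    (w : Fin 2) : Nat.card {i // (G.hf (inr (A i))).1 = w} = 1 ∧
      Nat.card {i // (G.hf (inr (B i))).1 = w} = 1 ∧ G.degAt w = (G.dec w).1 := by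
  have h0 : Nat.card {i // (G.hf (inr (A i))).1 = w} = 1 := by
    rw [Nat.card_eq_fintype_card, ← fin2_one (fun i => (G.hf (inr (A i))).1)
      (fun w => (H.sup hφ w).1) w]
  obtain ⟨h1, h2, h3⟩ := H.sup hφ w
  exact ⟨h0, h2.symm.trans h0, by omega⟩

lemma form_22 [Fintype M] (H : Nice A B φ) {a : M → ℕ}
    (G : Gr (Fin 2) (Fin 2) M) (h : wt G 1 a 2 ≠ 0) (hφ : φ ⟨2, 2, G⟩ ≠ 0) :
    (⟨2, 2, G⟩ : Σ k m : ℕ, Gr (Fin k) (Fin m) M) ∈ Set.range (form A B) := by
  obtain ⟨h1, h2, h3⟩ := wt_ne_zero h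
  have h4 := stab_fin h1
  rw [Fin.sum_univ_two] at h4
  have h5 : ∀ w, (G.dec w).1 = 0 := by
    intro w
    fin_cases w
    · show (G.dec 0).1 = 0
      omega
    · show (G.dec 1).1 = 0
      omega
  have h6 : ∀ w, G.degAt w = 0 := fun w => by rw [(H.one hφ w).2.2, h5 w]
  have h7 : ∀ w, (G.dec w).2 = 0 := by
    intro w
    have := degAt_fin G w
    rw [h6 w] at this
    exact mul_zero_of (h3 w) (by omega)
  have h8 : ∀ y, (G.hf y).2 = 0 := by
    intro y
    have := degAt_fin G (G.hf y).1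
    rw [h6] at this
    have h9 : ∑ z, (if (G.hf z).1 = (G.hf y).1 then (G.hf z).2 else 0) = 0 := by omega
    have := (Finset.sum_eq_zero_iff.mp h9) y (Finset.mem_univ y)
    simpa using this
  refine ⟨inr (inr ((G.hf (inl (0, true))).1, (G.hf (inl (0, false))).1,
    (G.hf (inl (1, true))).1, (G.hf (inl (1, false))).1, fun x => (G.hf (inr x)).1)), ?_⟩
  simp only [form, Sigma.mk.injEq, heq_eq_eq, true_and]
  apply Gr.ext'
  · intro v
    exact Prod.ext (h5 v).symm (h7 v).symm
  · rintro (⟨e, s⟩ | x)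
    · refine Prod.ext ?_ (h8 _).symm
      fin_cases e <;> cases s <;> rfl
    · exact Prod.ext rfl (h8 _).symm

lemma form_21 [Fintype M] (H : Nice A B φ) {a : M → ℕ}
    (G : Gr (Fin 2) (Fin 1) M) (h : wt G 1 a 2 ≠ 0) (hφ : φ ⟨2, 1, G⟩ ≠ 0) :
    (⟨2, 1, G⟩ : Σ k m : ℕ, Gr (Fin k) (Fin m) M) ∈ Set.range (form A B) := by
  obtain ⟨h1, h2, h3⟩ := wt_ne_zero h
  have h4 := stab_fin h1
  rw [Fin.sum_univ_two] at h4
  obtain ⟨v, hv1, hv0⟩ : ∃ v : Fin 2, (G.dec v).1 = 1 ∧ ∀ w, w ≠ v → (G.dec w).1 = 0 := by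
    apply sum_one (fun v => (G.dec v).1)
    rw [Fin.sum_univ_two]
    omega
  have h6 : ∀ w, G.degAt w = (G.dec w).1 := fun w => (H.one hφ w).2.2
  have h7 : ∀ w, w ≠ v → (G.dec w).2 = 0 := by
    intro w hw
    have := degAt_fin G w
    rw [h6 w, hv0 w hw] at this
    exact mul_zero_of (h3 w) (by omega)
  have h8 : ∀ y, (G.hf y).1 ≠ v → (G.hf y).2 = 0 := by
    intro y hy
    have := degAt_fin G (G.hf y).1
    rw [h6, hv0 _ hy] at this
    have h9 : ∑ z, (if (G.hf z).1 = (G.hf y).1 then (G.hf z).2 else 0) = 0 := by omega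
    have := (Finset.sum_eq_zero_iff.mp h9) y (Finset.mem_univ y)
    simpa using this
  have hd := degAt_fin G v
  rw [h6, hv1] at hd
  have hsum : (G.dec v).2.sum = 1 ∧ (∑ y, if (G.hf y).1 = v then (G.hf y).2 else 0) = 0 ∨
      (G.dec v).2.sum = 0 ∧ (∑ y, if (G.hf y).1 = v then (G.hf y).2 else 0) = 1 := by omega
  have key : ∃ δ : Option (Bool ⊕ M), (G.dec v).2 = (if δ = none then {1} else 0) ∧
      (∀ s, (G.hf (inl (0, s))).2 = if δ = some (inl s) then 1 else 0) ∧
      ∀ x, (G.hf (inr x)).2 = if δ = some (inr x) then 1 else 0 := by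
    rcases hsum with ⟨hk, hp⟩ | ⟨hk, hp⟩
    · have h9 : ∀ y, (G.hf y).2 = 0 := by
        intro y
        by_cases hy : (G.hf y).1 = v
        · have := (Finset.sum_eq_zero_iff.mp hp) y (Finset.mem_univ y)
          simpa [hy] using this
        · exact h8 y hy
      refine ⟨none, ?_, ?_, ?_⟩
      · rw [if_pos rfl]
        exact mul_one_of (h3 v) hk
      · intro s
        rw [h9, if_neg (by simp)]
      · intro x
        rw [h9, if_neg (by simp)]
    · obtain ⟨y, hy1, hy0⟩ := sum_one _ hp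
      have hyv : (G.hf y).1 = v := by
        by_contra hcon
        rw [if_neg hcon] at hy1
        exact absurd hy1 (by norm_num)
      rw [if_pos hyv] at hy1
      have h9 : ∀ z, z ≠ y → (G.hf z).2 = 0 := by
        intro z hz
        by_cases hzv : (G.hf z).1 = v
        · have := hy0 z hz
          rwa [if_pos hzv] at this
        · exact h8 z hzv
      have hk0 : (G.dec v).2 = 0 := mul_zero_of (h3 v) hk
      rcases y with ⟨e, s⟩ | x
      · have he : e = 0 := Subsingleton.elim _ _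
        subst he
        refine ⟨some (inl s), ?_, ?_, ?_⟩
        · rw [if_neg (by simp), hk0]
        · intro s'
          by_cases hs : s' = s
          · subst hs
            rw [if_pos rfl, hy1]
          · rw [if_neg (by simpa using fun h => hs h.symm)]
            exact h9 _ (by simpa using hs)
        · intro x
          rw [if_neg (by simp)]
          exact h9 _ (by simp)
      · refine ⟨some (inr x), ?_, ?_, ?_⟩
        · rw [if_neg (by simp), hk0]
        · intro s'
          rw [if_neg (by simp)]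
          exact h9 _ (by simp)
        · intro x'
          by_cases hs : x' = x
          · subst hs
            rw [if_pos rfl, hy1]
          · rw [if_neg (by simpa using fun h => hs h.symm)]
            exact h9 _ (by simpa using hs)
  obtain ⟨δ, k1, k2, k3⟩ := key
  refine ⟨inr (inl (v, (G.hf (inl (0, true))).1, (G.hf (inl (0, false))).1,
    (fun x => (G.hf (inr x)).1), δ)), ?_⟩
  simp only [form, Sigma.mk.injEq, heq_eq_eq, true_and]
  apply Gr.ext'
  · intro w
    by_cases hw : w = v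
    · subst hw
      apply Prod.ext
      · simp [fT3, hv1]
      · rw [k1]
        simp [fT3]
    · apply Prod.ext
      · simp [fT3, hw, hv0 w hw]
      · simp [fT3, hw, h7 w hw]
  · rintro (⟨e, s⟩ | x)
    · have he : e = 0 := Subsingleton.elim _ _
      subst he
      refine Prod.ext ?_ (k2 s).symm
      cases s <;> rfl
    · exact Prod.ext rfl (k3 x).symm

lemma form_all [Fintype M] (H : Nice A B φ) (hAB : ∀ i j, A i ≠ B j) {a : M → ℕ}
    (p : Σ k m : ℕ, Gr (Fin k) (Fin m) M) (h : wt p.2.2 1 a 2 ≠ 0) (hφ : φ p ≠ 0) :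
    p ∈ Set.range (form A B) := by
  obtain ⟨k, m, G⟩ := p
  dsimp only at h
  obtain ⟨h1, h2, h3⟩ := wt_ne_zero h
  have h4 := h1.conn_card
  rw [Nat.card_eq_fintype_card, Nat.card_eq_fintype_card, Fintype.card_fin, Fintype.card_fin]
    at h4
  obtain ⟨⟨v0⟩, _⟩ := id h1
  have hk0 : 0 < k := v0.pos
  have hk : k ≤ 2 := by
    have hs : Function.Surjective fun i => (G.hf (inr (A i))).1 := fun w => (H.sup hφ w).1
    have := Fintype.card_le_of_surjective _ hs
    simpa using this
  have h5 := stab_fin h1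
  obtain rfl | rfl : k = 1 ∨ k = 2 := by omega
  · exact form_k1 H hAB G h hφ
  · rw [Fin.sum_univ_two] at h5
    obtain rfl | rfl : m = 1 ∨ m = 2 := by omega
    · exact form_21 H G h hφ
    · exact form_22 H G h hφ

theorem sum_form [Fintype M] (H : Nice A B φ) (hA : A false ≠ A true) (hB : B false ≠ B true)
    (hAB : ∀ i j, A i ≠ B j) {a : M → ℕ} :
    ∑ p ∈ supp 1 a 2, (wt p.2.2 1 a 2 / (p.1.factorial * p.2.1.factorial * 2 ^ p.2.1)) * φ p =
      ∑ z, (wt (form A B z).2.2 1 a 2 / ((form A B z).1.factorial *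
        (form A B z).2.1.factorial * 2 ^ (form A B z).2.1)) * φ (form A B z) := by
  rw [← finsum_eq_sum_of_support_subset (s := supp 1 a 2) (fun p =>
    (wt p.2.2 1 a 2 / (p.1.factorial * p.2.1.factorial * 2 ^ p.2.1)) * φ p),
    ← finsum_eq_sum_of_fintype]
  · rw [← finsum_mem_range (f := fun p => (wt p.2.2 1 a 2 / (p.1.factorial *
      p.2.1.factorial * 2 ^ p.2.1)) * φ p) (form_inj hA hB hAB)]
    apply finsum_congr
    intro p
    rw [finsum_eq_if]
    split_ifs with h
    · rfl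
    · by_cases h0 : wt p.2.2 1 a 2 = 0
      · rw [h0, zero_div, zero_mul]
      by_cases h1 : φ p = 0
      · rw [h1, mul_zero]
      exact absurd (form_all H hAB p h0 h1) h
  · intro p hp
    by_contra hcon
    apply hp
    dsimp only
    rw [not_mem_supp hcon, zero_div, zero_mul]

end Vale.Agent.P273.D14.H118
end
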