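import Vale.Agent.P273.MathlibUsed

/-!
The linear combination of the Getzler type relations that gives the relations of degree two in
genus one.
-/

namespace Vale.Agent.P273.D14.H118
open Finset

variable {H : Type} [Fintype H] [DecidableEq H]

lemma sum_ite_mem_const (S : Finset H) (a b : ℚ) :
    ∑ q : H, (if q ∈ S then a else b) = S.card * a + Sᶜ.card * b := by
  rw [Finset.sum_ite]
  have h1 : (univ.filter fun q => q ∈ S) = S := by ext; simp
  have h2 : (univ.filter fun q => q ∉ S) = Sᶜ := by ext; simp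
  rw [h1, h2, Finset.sum_const, Finset.sum_const, nsmul_eq_mul, nsmul_eq_mul]

/-- The coefficient function of the Getzler type relation. -/
def gz (D L : Finset H → ℚ) (p q : H) (S : Finset H) : ℚ :=
  if p ∈ S then (if q ∈ S then - D S else L S + 2 * D S)
    else (if q ∈ S then L S + 2 * D S else - L S - D S)

/-- The sum over the second half-edge. -/
def gz1 (D L : Finset H → ℚ) (p : H) (S : Finset H) : ℚ :=
  if p ∈ S then - ((S.card : ℚ) - 1) * D S + Sᶜ.card * (L S + 2 * D S)
    else S.card * (L S + 2 * D S) + ((Sᶜ.card : ℚ) - 1) * (- L S - D S)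

lemma sum_gz (D L : Finset H → ℚ) (p : H) (S : Finset H) :
    ∑ q ∈ univ.erase p, gz D L p q S = gz1 D L p S := by
  have h1 : ∑ q ∈ univ.erase p, gz D L p q S = ∑ q, gz D L p q S - gz D L p p S := by
    rw [← Finset.add_sum_erase univ _ (Finset.mem_univ p)]
    ring
  rw [h1]
  unfold gz gz1
  by_cases hp : p ∈ S
  · simp only [if_pos hp]
    rw [sum_ite_mem_const]
    ring
  · simp only [if_neg hp]
    rw [sum_ite_mem_const]
    ring

lemma sum_gz1 (D L : Finset H → ℚ) (S : Finset H) :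
    ∑ p, gz1 D L p S = S.card * (- ((S.card : ℚ) - 1) * D S + Sᶜ.card * (L S + 2 * D S)) +
      Sᶜ.card * (S.card * (L S + 2 * D S) + ((Sᶜ.card : ℚ) - 1) * (- L S - D S)) := by
  unfold gz1
  rw [sum_ite_mem_const]

/-- The relations of degree two in genus one. -/
theorem r2_identity (D L : Finset H → ℚ)
    (hs : ∑ S : Finset H, (L S + D S) = 0)
    (hG : ∀ p q : H, p ≠ q → ∑ S : Finset H, (if p ∈ S then (if q ∈ S then - D S
      else L S + 2 * D S) else (if q ∈ S then L S + 2 * D S else - L S - D S)) = 0)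
    (T : Finset H) (j : ℕ) (hTj : T.card + j = 0 ∨ T.card + j = 2) :
    (((Fintype.card H + 4).ascFactorial j : ℕ) : ℚ) * ∑ S : Finset H, D S
   - 6 * ∑ S : Finset H, ∑ k ∈ Finset.range (j + 1), ((j.choose k : ℕ) : ℚ) *
    (-1) ^ ((S ∩ T).card + k) *
    (((S.card + 2).ascFactorial k : ℕ) * ((Sᶜ.card + 2).ascFactorial (j - k) : ℕ)) * D S
   + ∑ S : Finset H, ∑ k ∈ Finset.range (j + 1), ((j.choose k : ℕ) : ℚ) *
    (-1) ^ ((S ∩ T).card + k) * (2 * (((S ∩ T).card : ℚ) + k) - 5) *
    (((S.card + 3).ascFactorial k : ℕ) * ((Sᶜ.card + 1).ascFactorial (j - k) : ℕ)) * L S = 0 := by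
  have hG' : ∀ p q : H, p ≠ q → ∑ S : Finset H, gz D L p q S = 0 := hG
  have hG1 : ∀ p : H, ∑ S : Finset H, gz1 D L p S = 0 := by
    intro p
    have : ∑ S : Finset H, gz1 D L p S = ∑ S : Finset H, ∑ q ∈ univ.erase p, gz D L p q S :=
      Finset.sum_congr rfl fun S _ => (sum_gz D L p S).symm
    rw [this, Finset.sum_comm]
    apply Finset.sum_eq_zero
    intro q hq
    exact hG' p q (Finset.ne_of_mem_erase hq).symm
  have hN : ∀ S : Finset H, (Fintype.card H : ℚ) = S.card + Sᶜ.card := by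
    intro S
    rw [← Finset.card_add_card_compl S]
    push_cast
    ring
  rw [Finset.mul_sum, Finset.mul_sum, ← Finset.sum_sub_distrib, ← Finset.sum_add_distrib]
  have hTj' : (T.card = 0 ∧ j = 0) ∨ (T.card = 2 ∧ j = 0) ∨ (T.card = 1 ∧ j = 1) ∨
      (T.card = 0 ∧ j = 2) := by omega
  rcases hTj' with ⟨h1, rfl⟩ | ⟨h1, rfl⟩ | ⟨h1, rfl⟩ | ⟨h1, rfl⟩
  · rw [Finset.card_eq_zero] at h1
    subst h1
    have h2 : (0 : ℚ) = -5 * ∑ S : Finset H, (L S + D S) := by rw [hs, mul_zero]
    rw [h2, Finset.mul_sum]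
    apply Finset.sum_congr rfl
    intro S _
    simp
    ring
  · obtain ⟨p, q, hpq, rfl⟩ := Finset.card_eq_two.1 h1
    have h2 : (0 : ℚ) = ∑ S : Finset H, (4 * gz D L p q S - (L S + D S)) := by
      rw [Finset.sum_sub_distrib, ← Finset.mul_sum, hG' p q hpq, hs]
      ring
    rw [h2]
    apply Finset.sum_congr rfl
    intro S _
    have h3 : (S ∩ {p, q}).card = (if p ∈ S then 1 else 0) + (if q ∈ S then 1 else 0) := by
      rw [Finset.inter_comm, ← Finset.filter_mem_eq_inter, Finset.card_filter,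
        Finset.sum_pair hpq]
    rw [h3]
    unfold gz
    by_cases hp : p ∈ S <;> by_cases hq : q ∈ S <;> simp [hp, hq] <;> ring
  · obtain ⟨p, rfl⟩ := Finset.card_eq_one.1 h1
    have h2 : (0 : ℚ) = ∑ S : Finset H, (4 * gz1 D L p S - Fintype.card H * (L S + D S)) := by
      rw [Finset.sum_sub_distrib, ← Finset.mul_sum, ← Finset.mul_sum, hG1, hs]
      ring
    rw [h2]
    apply Finset.sum_congr rfl
    intro S _
    have h3 : (S ∩ {p}).card = if p ∈ S then 1 else 0 := by
      by_cases hp : p ∈ S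
      · rw [Finset.inter_singleton_of_mem hp, if_pos hp, Finset.card_singleton]
      · rw [Finset.inter_singleton_of_notMem hp, if_neg hp, Finset.card_empty]
    rw [h3]
    unfold gz1
    have h4 := hN S
    by_cases hp : p ∈ S
    · simp [hp, Finset.sum_range_succ, Nat.ascFactorial, h4]
      ring
    · simp [hp, Finset.sum_range_succ, Nat.ascFactorial, h4]
      ring
  · rw [Finset.card_eq_zero] at h1
    subst h1
    have h2 : (0 : ℚ) = ∑ S : Finset H, (4 * ∑ p, gz1 D L p S -
        ((Fintype.card H : ℚ) ^ 2 + Fintype.card H + 4) * (L S + D S)) := by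
      rw [Finset.sum_sub_distrib, ← Finset.mul_sum, ← Finset.mul_sum, hs, Finset.sum_comm,
        Finset.sum_eq_zero (fun p _ => hG1 p)]
      ring
    rw [h2]
    apply Finset.sum_congr rfl
    intro S _
    have h4 := hN S
    rw [sum_gz1]
    simp [Finset.sum_range_succ, Nat.ascFactorial, h4]
    ring

end Vale.Agent.P273.D14.H118
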