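import Vale.Agent.P273.D14.H118.Pos
import Vale.Agent.P273.D14.H118.R2Id
import Vale.Agent.P273.D14.H462.CoreB
import Vale.Agent.P273.D14.H462.PSide
import Vale.Agent.P273.D14.H66.LD

/-!
The family of relations of degree two in genus one, from the values of the functional.
-/

noncomputable section
namespace Vale.Agent.P273.D14.H118
open Sum Vale.Agent.P273 Vale.Agent.P273.C1.R3B Vale.Agent.P273.C1.R1B
open H387 (Und LL)
open H462 (ff)
open scoped Classical

variable {R T L : Type}

/-- The values of the functional on the two types of graphs with rational vertices. -/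
structure Vals [Fintype L] (φ : Und) (W : Env R T L LL) [Fintype (HH W)] (x : Bool → Bool → L)
    (c : ℚ) : Prop where
  hD : ∀ ε ∈ Std (x true) (x false),
    H387.G φ _ _ (W.graft (fT4 1 0 1 0 ε)).dec (W.graft (fT4 1 0 1 0 ε)).hf =
      c * ((((sH (pos W) ε).card + 2).ascFactorial (sJ (JJ W) ε).card : ℕ) *
        (((sH (pos W) ε)ᶜ.card + 2).ascFactorial ((JJ W).card - (sJ (JJ W) ε).card) : ℕ)) *
      φ _ _ (FS.dbf (H17.ctr W) none (Subtype.val '' (sH (pos W) ε : Set (HH W))))
  hL : ∀ ε ∈ Std (x true) (x false),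
    H387.G φ _ _ (W.graft (fT4 1 1 1 0 ε)).dec (W.graft (fT4 1 1 1 0 ε)).hf =
      c * ((((sH (pos W) ε).card + 3).ascFactorial (sJ (JJ W) ε).card : ℕ) *
        (((sH (pos W) ε)ᶜ.card + 1).ascFactorial ((JJ W).card - (sJ (JJ W) ε).card) : ℕ)) *
      φ _ _ (FS.lgf (H17.ctr W) none (Subtype.val '' (sH (pos W) ε : Set (HH W))))

/-- The values vanish or the environment has seven vertices and seven edges. -/
lemma sevens [Finite L] (hφ : ff.Br) {W : Env R T L LL} {ε : L → Fin 2}
    (hε : ∀ w, ∃ y z : L, y ≠ z ∧ ε y = w ∧ ε z = w) (b : Bool)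
    (h : H387.G ff _ _ (W.graft (fT4 1 (if b then 1 else 0) 1 0 ε)).dec
      (W.graft (fT4 1 (if b then 1 else 0) 1 0 ε)).hf ≠ 0) :
    Nat.card T = 7 ∧ Nat.card (Option R) = 7 ∧ ∀ S : Set (Option R), (∀ t, H17.ctr W (t, true) ∈ S ↔
      H17.ctr W (t, false) ∈ S) → S = ∅ ∨ S = Set.univ := by
  refine env_facts hφ h (stab2 _ 1 ?_ ?_ ?_) (fun v => rfl)
  · show (1 : Fin 2) ≠ 0
    decide
  · rfl
  · exact hε

theorem f12_core [Finite R] [Finite T] [Fintype L] (W : Env R T L LL)
    (huW : ∀ y z p, W.use y = inl p → W.use z = inl p → y = z) {i : Bool → Bool → Fin 8}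
    {x : Bool → Bool → L} (h2W : H462.Two W.use i x) {Z : Finset L} (hZ : Z.card = 0 ∨ Z.card = 2)
    (hZx : ∀ z ∈ Z, ∀ c t, z ≠ x c t) (hr : ∀ z, z ∉ Z → inl z ∈ Set.range W.use)
    (N2 : Nice2 (x true) (x false)
      (fun p => H387.G ff _ _ (W.graft p.2.2).dec (W.graft p.2.2).hf))
    [Fintype (HH W)] {c : ℚ} (V : Vals ff W x c) :
    rl (H387.G ff) W.dec W.use W.b
      (fun z => if z = x true true ∨ z = x false true ∨ z ∈ Z then 1 else 0) 1 2 = 0 := by
  have C := cov_of_two huW h2W
  have hx : ∀ c, x c false ≠ x c true := x_ne huW h2W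
  have hxx : ∀ i j, x true i ≠ x false j := x_ne' huW h2W
  set a : L → ℕ := fun z => if z = x true true ∨ z = x false true ∨ z ∈ Z then 1 else 0 with ha
  have ha1 : ∀ z, a z ≤ 1 := by
    intro z
    simp only [ha]
    split_ifs <;> omega
  have a0 : a (x true false) = 0 := by
    rw [ha]
    apply if_neg
    rintro (h | h | h)
    · exact hx _ h
    · exact hxx _ _ h
    · exact hZx _ h _ _ rfl
  have b0 : a (x false false) = 0 := by
    rw [ha]
    apply if_neg
    rintro (h | h | h)
    · exact hxx _ _ h.symm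
    · exact hx _ h
    · exact hZx _ h _ _ rfl
  have a1 : a (x true true) = 1 := if_pos (Or.inl rfl)
  have b1 : a (x false true) = 1 := if_pos (Or.inr (Or.inl rfl))
  have hJZ : JJ W ⊆ Z := by
    intro z hz
    by_contra hzZ
    exact mem_JJ.1 hz (hr z hzZ)
  have aJ : ∀ z ∈ JJ W, a z = 1 := fun z hz => if_pos (Or.inr (Or.inr (hJZ hz)))
  have hcZ := card_Z C hJZ (fun t h => hZx _ h _ _ rfl) (fun t h => hZx _ h _ _ rfl)
  have hT : (Finset.univ.filter fun y : HH W => a (pos W y) = 1) =
      Finset.univ.filter fun y => pos W y ∈ Z := by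
    apply Finset.filter_congr
    intro y _
    constructor
    · intro h
      by_contra hy
      rw [ha] at h
      have : (if pos W y = x true true ∨ pos W y = x false true ∨ pos W y ∈ Z then 1 else 0) =
        0 := by
        apply if_neg
        rintro (h | h | h)
        · exact C.neA _ _ h
        · exact C.neB _ _ h
        · exact hy h
      rw [show (if pos W y = x true true ∨ pos W y = x false true ∨ pos W y ∈ Z then 1 else 0) = 1
        from h] at this
      exact absurd this (by norm_num)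
    · exact fun h => if_pos (Or.inr (Or.inr h))
  have hpar : Even (∑ z, a z) := by
    have h1 : ∑ z, a z = 2 + Z.card := by
      have h3 : ∑ z, a z = (({x true true, x false true} : Finset L) ∪ Z).card := by
        rw [Finset.card_eq_sum_ones, ← Finset.sum_filter_add_sum_filter_not Finset.univ
          (fun z => z ∈ ({x true true, x false true} : Finset L) ∪ Z)]
        have h4 : ∑ z ∈ Finset.univ.filter (fun z => ¬ z ∈ ({x true true, x false true} :
            Finset L) ∪ Z), a z = 0 := by
          apply Finset.sum_eq_zero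
          intro z hz
          apply if_neg
          simp only [Finset.mem_filter, Finset.mem_union, Finset.mem_insert,
            Finset.mem_singleton] at hz
          tauto
        rw [h4, add_zero]
        have h5 : (Finset.univ.filter (fun z => z ∈ ({x true true, x false true} :
            Finset L) ∪ Z)) = ({x true true, x false true} : Finset L) ∪ Z := by
          ext z
          simp
        rw [h5]
        apply Finset.sum_congr rfl
        intro z hz
        apply if_pos
        simp only [Finset.mem_union, Finset.mem_insert, Finset.mem_singleton] at hz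
        tauto
      rw [h3, Finset.card_union_of_disjoint, Finset.card_pair (hxx _ _)]
      rw [Finset.disjoint_left]
      intro z hz hz'
      simp only [Finset.mem_insert, Finset.mem_singleton] at hz
      rcases hz with h | h
      · exact hZx z hz' _ _ h
      · exact hZx z hz' _ _ h
    rw [h1]
    rcases hZ with h | h
    · rw [h]; decide
    · rw [h]; decide
  rw [rl_eq, eval_two N2 (hx true) (hx false) hxx ha1 hpar a0 a1 b0 b1]
  have hJ2 : (JJ W).card ≤ 2 := by
    have := Finset.card_le_card hJZ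
    omega
  have hsum := rel_sum C (hx true) (hx false) hxx a0 b0 aJ ha1 hJ2
    (fun ε => H387.G ff _ _ (W.graft (fT4 1 0 1 0 ε)).dec (W.graft (fT4 1 0 1 0 ε)).hf)
    (fun ε => H387.G ff _ _ (W.graft (fT4 1 1 1 0 ε)).dec (W.graft (fT4 1 1 1 0 ε)).hf) c
    (fun S => ff _ _ (FS.dbf (H17.ctr W) none (Subtype.val '' (S : Set (HH W)))))
    (fun S => ff _ _ (FS.lgf (H17.ctr W) none (Subtype.val '' (S : Set (HH W)))))
    V.hD V.hL
  by_cases hne : ∃ ε ∈ Std (x true) (x false), ∃ b : Bool,
    H387.G ff _ _ (W.graft (fT4 1 (if b then 1 else 0) 1 0 ε)).dec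
      (W.graft (fT4 1 (if b then 1 else 0) 1 0 ε)).hf ≠ 0
  · obtain ⟨ε, hε, b, h⟩ := hne
    simp only [Std, Finset.mem_filter, Finset.mem_univ, true_and] at hε
    have hε' : ∀ w, ∃ y z : L, y ≠ z ∧ ε y = w ∧ ε z = w := by
      intro w
      fin_cases w
      · exact ⟨_, _, hxx true true, hε.2.1, hε.2.2.2⟩
      · exact ⟨_, _, hxx false false, hε.1, hε.2.2.1⟩
    obtain ⟨h7, h7', hcon⟩ := sevens H462.ff_br hε' b h
    have hTj : (Finset.univ.filter fun y : HH W => a (pos W y) = 1).card + (JJ W).card = 0 ∨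
        (Finset.univ.filter fun y : HH W => a (pos W y) = 1).card + (JJ W).card = 2 := by
      rw [hT, hcZ]
      exact hZ
    have key := r2_identity (H := HH W)
      (fun S => ff _ _ (FS.dbf (H17.ctr W) none (Subtype.val '' (S : Set (HH W)))))
      (fun S => ff _ _ (FS.lgf (H17.ctr W) none (Subtype.val '' (S : Set (HH W)))))
      (FS.f_LD (H17.ctr W) none)
      (fun p q hpq => FS.f_Gz (H17.ctr W) hcon h7' h7 none p q hpq) _ _ hTj
    rw [hsum]
    exact mul_eq_zero_of_right _ (mul_eq_zero_of_right _ key)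
  · rw [Finset.sum_eq_zero, mul_zero]
    intro ε hε
    have h1 : H387.G ff _ _ (W.graft (fT4 1 0 1 0 ε)).dec (W.graft (fT4 1 0 1 0 ε)).hf = 0 := by
      by_contra h
      exact hne ⟨ε, hε, false, h⟩
    have h2 : H387.G ff _ _ (W.graft (fT4 1 1 1 0 ε)).dec (W.graft (fT4 1 1 1 0 ε)).hf = 0 := by
      by_contra h
      exact hne ⟨ε, hε, true, h⟩
    rw [h1, h2, mul_zero, mul_zero, add_zero]

/-- The sum of the values without forgotten legs. -/
theorem sum_DL [Finite R] [Finite T] [Fintype L] (W : Env R T L LL)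
    (huW : ∀ y z p, W.use y = inl p → W.use z = inl p → y = z) {i : Bool → Bool → Fin 8}
    {x : Bool → Bool → L} (h2W : H462.Two W.use i x) (hr : ∀ z, inl z ∈ Set.range W.use)
    [Fintype (HH W)] {c : ℚ} (V : Vals ff W x c) :
    ∑ ε ∈ Std (x true) (x false),
      (H387.G ff _ _ (W.graft (fT4 1 0 1 0 ε)).dec (W.graft (fT4 1 0 1 0 ε)).hf +
        H387.G ff _ _ (W.graft (fT4 1 1 1 0 ε)).dec (W.graft (fT4 1 1 1 0 ε)).hf) = 0 := by
  have hJ : JJ W = ∅ := by
    rw [Finset.eq_empty_iff_forall_notMem]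
    intro z hz
    exact mem_JJ.1 hz (hr z)
  let F : Finset (HH W) → Finset L → ℚ := fun S _ => c *
    (ff _ _ (FS.lgf (H17.ctr W) none (Subtype.val '' (S : Set (HH W)))) +
      ff _ _ (FS.dbf (H17.ctr W) none (Subtype.val '' (S : Set (HH W)))))
  have h1 : ∀ ε ∈ Std (x true) (x false),
      H387.G ff _ _ (W.graft (fT4 1 0 1 0 ε)).dec (W.graft (fT4 1 0 1 0 ε)).hf +
        H387.G ff _ _ (W.graft (fT4 1 1 1 0 ε)).dec (W.graft (fT4 1 1 1 0 ε)).hf =
      F (sH (pos W) ε) (sJ (JJ W) ε) := by
    intro ε hε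
    have hs : sJ (JJ W) ε = ∅ := by
      unfold sJ
      rw [hJ, Finset.filter_empty]
    rw [V.hD ε hε, V.hL ε hε, hs, hJ]
    simp only [F, Finset.card_empty, Nat.sub_zero, Nat.ascFactorial_zero, Nat.cast_one, mul_one]
    ring
  rw [Finset.sum_congr rfl h1, sum_std (cov_of_two huW h2W) (x_ne huW h2W true)
    (x_ne huW h2W false) (x_ne' huW h2W) F, hJ]
  simp only [Finset.powerset_empty, Finset.sum_singleton, F]
  rw [← Finset.mul_sum]
  exact mul_eq_zero_of_right _ (FS.f_LD (H17.ctr W) none)

end Vale.Agent.P273.D14.H118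
end
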