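import Vale.Agent.P273.D14.H118.F12
import Vale.Agent.P273.D14.H387.Plug6

/-!
The family of relations of degree two in genus one.
-/

noncomputable section
namespace Vale.Agent.P273.D14.H118
open Sum Vale.Agent.P273 Vale.Agent.P273.C1.R3B Vale.Agent.P273.C1.R1B
open H387 (Und LL)
open H462 (ff ff_inv ff_br)
open scoped Classical

variable {R T L : Type}

/-- The values. -/
theorem vals_ff [Fintype L] {W : Env R T L LL} [Fintype (HH W)] {i : Bool → Bool → Fin 8}
    {x : Bool → Bool → L}
    (hW : ∀ y z x, W.use y = inl x → W.use z = inl x → y = z) (hb : ∀ x, W.b x = 0)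
    (h0 : ∀ r, 0 ∉ (W.dec r).2) (h2 : H462.Two W.use i x) : ∃ c, Vals ff W x c := by
  obtain ⟨c, -, h⟩ := H387.vals ff_inv ff_br hW hb h0 h2
  exact ⟨c, fun ε hε => (h ε hε).1, fun ε hε => (h ε hε).2⟩

/-- The family of relations of degree two in genus one. -/
theorem f12_of (hN : ∀ (R T L : Type) [Finite R] [Finite T] [Fintype L] (W : Env R T L LL)
    (i : Bool → Bool → Fin 8) (x : Bool → Bool → L),
    (∀ y z x, W.use y = inl x → W.use z = inl x → y = z) → (∀ x, W.b x = 0) →
    (∀ r, 0 ∉ (W.dec r).2) → H462.Two W.use i x → Nice2 (x true) (x false) (H387.ph ff W)) :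
    H462.F12 (H387.G ff) := by
  intro R T L _ _ _ r u hr hu i x h2 Z hZ hZx hrange
  have := Fintype.ofFinite L
  have := Fintype.ofFinite T
  let W : Env R T L LL := ⟨r, u, fun _ => 0⟩
  have := Fintype.ofFinite (HH W)
  obtain ⟨c, hV⟩ := vals_ff (W := W) hu (fun _ => rfl) hr h2
  exact f12_core W hu h2 hZ hZx hrange (hN R T L W i x hu (fun _ => rfl) hr h2) hV

end Vale.Agent.P273.D14.H118
end
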