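import Vale.Agent.P273.D14.H118.RelSum
import Vale.Agent.P273.D14.H462.Red
import Vale.Agent.P273.D14.H17.Star
import Vale.Agent.P273.D14.H387.Sep

/-!
The positions of a vertex with two legs of each colour.
-/

noncomputable section
namespace Vale.Agent.P273.D14.H118
open Sum Vale.Agent.P273 Vale.Agent.P273.C1.R3B Vale.Agent.P273.C1.R1B
open scoped Classical

variable {R T L N : Type}

/-- The half-edges of the environment at the special vertex. -/
abbrev HH (W : Env R T L N) : Type := {y : T × Bool // H17.ctr W y = none}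

lemma HH.ex {W : Env R T L N} (y : HH W) : ∃ z, W.use (inl y.1) = inl z := by
  obtain ⟨y, hy⟩ := y
  unfold H17.ctr at hy
  rcases h : W.use (inl y) with z | p
  · exact ⟨z, rfl⟩
  · rw [h] at hy
    simp at hy

/-- The position of a half-edge at the special vertex. -/
def pos (W : Env R T L N) (y : HH W) : L := y.ex.choose

lemma use_pos {W : Env R T L N} (y : HH W) : W.use (inl y.1) = inl (pos W y) := y.ex.choose_spec

/-- The forgotten legs. -/
def JJ [Fintype L] (W : Env R T L N) : Finset L :=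
  Finset.univ.filter fun z => inl z ∉ Set.range W.use

lemma mem_JJ [Fintype L] {W : Env R T L N} {z : L} : z ∈ JJ W ↔ inl z ∉ Set.range W.use := by
  unfold JJ
  rw [Finset.mem_filter]
  exact ⟨fun h => h.2, fun h => ⟨Finset.mem_univ _, h⟩⟩

theorem cov_of_two [Fintype L] {W : Env R T L H462.LL} {i : Bool → Bool → Fin 8}
    {x : Bool → Bool → L} (hu : ∀ y z p, W.use y = inl p → W.use z = inl p → y = z)
    (h : H462.Two W.use i x) : Cov (x true) (x false) (pos W) (JJ W) := by
  refine ⟨?_, ?_, ?_, ?_, ?_, ?_, ?_⟩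
  · intro y y' hyy
    have h1 := hu _ _ _ (use_pos y) (by rw [hyy]; exact use_pos y')
    exact Subtype.ext (inl_injective h1)
  · intro y t hyt
    have h1 := hu _ _ _ (use_pos y) (by rw [hyt]; exact h.pos true t)
    simp at h1
  · intro y t hyt
    have h1 := hu _ _ _ (use_pos y) (by rw [hyt]; exact h.pos false t)
    simp at h1
  · intro y
    rw [mem_JJ, not_not]
    exact ⟨_, use_pos y⟩
  · intro t
    rw [mem_JJ, not_not]
    exact ⟨_, h.pos true t⟩
  · intro t
    rw [mem_JJ, not_not]
    exact ⟨_, h.pos false t⟩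
  · intro z
    by_cases hz : inl z ∈ Set.range W.use
    · obtain ⟨y | ⟨j, c⟩, hy⟩ := hz
      · right; right; left
        have h0 : H17.ctr W y = none := by
          unfold H17.ctr
          rw [hy]
          rfl
        refine ⟨⟨y, h0⟩, ?_⟩
        have h1 := use_pos (⟨y, h0⟩ : HH W)
        have h2 : W.use (inl y) = inl (pos W ⟨y, h0⟩) := h1
        rw [hy] at h2
        exact (inl_injective h2).symm
      · have h1 : ∃ t, z = x c t := by
          by_cases h2 : j = i c true
          · rw [h2, h.pos] at hy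
            exact ⟨true, (inl_injective hy).symm⟩
          by_cases h3 : j = i c false
          · rw [h3, h.pos] at hy
            exact ⟨false, (inl_injective hy).symm⟩
          obtain ⟨p, hp⟩ := h.rest c j h2 h3
          rw [hp] at hy
          cases hy
        cases c
        · exact Or.inr (Or.inl h1)
        · exact Or.inl h1
    · exact Or.inr (Or.inr (Or.inr (mem_JJ.2 hz)))

/-- The positions of the legs are different. -/
lemma x_ne {W : Env R T L H462.LL} {i : Bool → Bool → Fin 8} {x : Bool → Bool → L}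
    (hu : ∀ y z p, W.use y = inl p → W.use z = inl p → y = z)
    (h : H462.Two W.use i x) (c : Bool) : x c false ≠ x c true := by
  intro h1
  have h2 := hu _ _ _ (h.pos c false) (by rw [h1]; exact h.pos c true)
  simp only [inr.injEq, Prod.mk.injEq, and_true] at h2
  exact h.ne c h2.symm

lemma x_ne' {W : Env R T L H462.LL} {i : Bool → Bool → Fin 8} {x : Bool → Bool → L}
    (hu : ∀ y z p, W.use y = inl p → W.use z = inl p → y = z)
    (h : H462.Two W.use i x) (t t' : Bool) : x true t ≠ x false t' := by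
  intro h1
  have h2 := hu _ _ _ (h.pos true t) (by rw [h1]; exact h.pos false t')
  simp at h2

/-- The half-edges and the forgotten legs with exponent one. -/
lemma card_Z {H M : Type} [Fintype H] {A B : Bool → M} {pos : H → M} {J : Finset M}
    (C : Cov A B pos J) {Z : Finset M} (hJ : J ⊆ Z) (hA : ∀ t, A t ∉ Z) (hB : ∀ t, B t ∉ Z) :
    (Finset.univ.filter fun y => pos y ∈ Z).card + J.card = Z.card := by
  have h1 : Z = (Finset.univ.filter fun y => pos y ∈ Z).image pos ∪ J := by
    ext z
    simp only [Finset.mem_union, Finset.mem_image, Finset.mem_filter, Finset.mem_univ, true_and]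
    constructor
    · intro hz
      rcases C.cov z with ⟨t, rfl⟩ | ⟨t, rfl⟩ | ⟨y, rfl⟩ | hz'
      · exact absurd hz (hA t)
      · exact absurd hz (hB t)
      · exact Or.inl ⟨y, hz, rfl⟩
      · exact Or.inr hz'
    · rintro (⟨y, hy, rfl⟩ | h)
      · exact hy
      · exact hJ h
  conv_rhs => rw [h1]
  rw [Finset.card_union_of_disjoint, Finset.card_image_of_injective _ C.inj]
  rw [Finset.disjoint_left]
  intro z hz hz'
  rw [Finset.mem_image] at hz
  obtain ⟨y, _, rfl⟩ := hz
  exact C.neJ y hz'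

/-- The environment of a graph with a nonzero value. -/
lemma env_facts {φ : H387.Und} (hφ : φ.Br) {W : Env R T L H387.LL} {Γ : Gr (Fin 2) (Fin 2) L}
    (h : H387.G φ _ _ (W.graft Γ).dec (W.graft Γ).hf ≠ 0) (hs : Γ.Stab 1)
    (hd : ∀ v, (Γ.dec v).1 = 0) :
    Nat.card T = 7 ∧ Nat.card (Option R) = 7 ∧ ∀ S : Set (Option R), (∀ t, H17.ctr W (t, true) ∈ S ↔
      H17.ctr W (t, false) ∈ S) → S = ∅ ∨ S = Set.univ := by
  have hv : Q.Valid (W.graft Γ).dec (W.graft Γ).hf 2 9 := by
    by_contra h1
    exact h (H387.G_invalid h1)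
  have hgen : ∀ v, ((W.graft Γ).dec v).1 = 0 := by
    rintro (v | v)
    · exact hd v
    · exact H387.no_genus hφ hs h v
  have h0 : H387.G0 φ (H387.rz (W.graft Γ).dec) (W.graft Γ).hf ≠ 0 := by
    intro h1
    rw [H387.G_of_valid hv, h1, mul_zero] at h
    exact h rfl
  have hT : H387.Ty1 (H387.rz (W.graft Γ).dec) (W.graft Γ).hf := by
    rcases H387.G0_ne h0 with ⟨h1, -⟩ | ⟨w, h1, -⟩
    · exact h1
    · exfalso
      have h2 : ((W.graft Γ).dec w).1 = 1 := h1.1
      rw [hgen w] at h2
      exact absurd h2 (by norm_num)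
  have hVR : Finite (Fin 2 ⊕ R) := hv.1.1
  have hET : Finite (Fin 2 ⊕ T) := hv.1.2.1
  have hR : Finite R := Finite.of_injective (inr : R → Fin 2 ⊕ R) inr_injective
  have hT' : Finite T := Finite.of_injective (inr : T → Fin 2 ⊕ T) inr_injective
  have hg : ∑ᶠ v, ((W.graft Γ).dec v).1 + Nat.card (Fin 2 ⊕ T) + 1 = 2 + Nat.card (Fin 2 ⊕ R) :=
    hv.1.2.2.2.2.1
  have hdg : Nat.card (Fin 2 ⊕ T) + ∑ᶠ v, ((W.graft Γ).dec v).2.sum +
      ∑ᶠ y, ((W.graft Γ).hf y).2 = 9 := hv.1.2.2.2.2.2.2
  rw [finsum_eq_zero_of_forall_eq_zero hgen] at hg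
  have hs0 : ∀ v, ((W.graft Γ).dec v).2.sum = 0 := by
    intro v
    rw [← H387.rz_sum, hT.1 v]
    rfl
  rw [finsum_eq_zero_of_forall_eq_zero hs0, finsum_eq_zero_of_forall_eq_zero hT.2] at hdg
  rw [Nat.card_sum, Nat.card_sum] at hg
  rw [Nat.card_sum] at hdg
  have h2 : Nat.card (Fin 2) = 2 := by simp
  rw [h2] at hg hdg
  refine ⟨by omega, by rw [Finite.card_option]; omega, H17.conn_ctr (G := Γ) hv.1.2.2.2.1⟩

end Vale.Agent.P273.D14.H118
end
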