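import Vale.Agent.P273.D14.H118.SumStd

/-!
The relation, from the values of the functional.
-/

noncomputable section
namespace Vale.Agent.P273.D14.H118
open Sum Vale.Agent.P273
open scoped Classical

variable {M H : Type} {A B : Bool → M} {pos : H → M} {J : Finset M}

/-- Vandermonde's identity for rising factorials. -/
lemma vdm (x y : ℕ) {j : ℕ} (hj : j ≤ 2) :
    ∑ k ∈ Finset.range (j + 1), ((j.choose k : ℕ) : ℚ) *
      ((x.ascFactorial k : ℕ) * (y.ascFactorial (j - k) : ℕ)) = ((x + y).ascFactorial j : ℕ) := by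
  interval_cases j
  · simp
  · simp [Finset.sum_range_succ, Nat.ascFactorial]
    ring
  · simp [Finset.sum_range_succ, Nat.ascFactorial]
    ring

theorem rel_sum [Fintype M] [Fintype H] [DecidableEq H] (C : Cov A B pos J) (hA : A false ≠ A true)
    (hB : B false ≠ B true) (hAB : ∀ i j, A i ≠ B j) {a : M → ℕ} (a0 : a (A false) = 0)
    (b0 : a (B false) = 0) (haJ : ∀ z ∈ J, a z = 1) (ha : ∀ z, a z ≤ 1) (hJ2 : J.card ≤ 2)
    (φD φL : (M → Fin 2) → ℚ) (c : ℚ) (D L : Finset H → ℚ)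
    (hD : ∀ ε ∈ Std A B, φD ε =
      c * ((((sH pos ε).card + 2).ascFactorial (sJ J ε).card : ℕ) *
        (((sH pos ε)ᶜ.card + 2).ascFactorial (J.card - (sJ J ε).card) : ℕ)) * D (sH pos ε))
    (hL : ∀ ε ∈ Std A B, φL ε =
      c * ((((sH pos ε).card + 3).ascFactorial (sJ J ε).card : ℕ) *
        (((sH pos ε)ᶜ.card + 1).ascFactorial (J.card - (sJ J ε).card) : ℕ)) * L (sH pos ε)) :
    ∑ ε ∈ Std A B, ((1 - 6 * (-1) ^ QQ a ε 1) * φD ε +
        (-1) ^ QQ a ε 1 * (2 * QQ a ε 1 - 5) * φL ε) = c *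
      ((((Fintype.card H + 4).ascFactorial J.card : ℕ) : ℚ) * ∑ S : Finset H, D S -
      6 * ∑ S : Finset H, ∑ k ∈ Finset.range (J.card + 1), ((J.card.choose k : ℕ) : ℚ) *
        (-1) ^ ((S ∩ Finset.univ.filter fun y => a (pos y) = 1).card + k) *
        (((S.card + 2).ascFactorial k : ℕ) * ((Sᶜ.card + 2).ascFactorial (J.card - k) : ℕ)) * D S +
      ∑ S : Finset H, ∑ k ∈ Finset.range (J.card + 1), ((J.card.choose k : ℕ) : ℚ) *
        (-1) ^ ((S ∩ Finset.univ.filter fun y => a (pos y) = 1).card + k) *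
        (2 * (((S ∩ Finset.univ.filter fun y => a (pos y) = 1).card : ℚ) + k) - 5) *
        (((S.card + 3).ascFactorial k : ℕ) * ((Sᶜ.card + 1).ascFactorial (J.card - k) : ℕ)) *
        L S) := by
  set T : Finset H := Finset.univ.filter fun y => a (pos y) = 1 with hT
  let F : Finset H → ℕ → ℚ := fun S k => c *
    ((1 - 6 * (-1) ^ ((S ∩ T).card + k)) * (((S.card + 2).ascFactorial k : ℕ) *
      ((Sᶜ.card + 2).ascFactorial (J.card - k) : ℕ)) * D S +
    (-1) ^ ((S ∩ T).card + k) * (2 * (((S ∩ T).card : ℚ) + k) - 5) *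
      (((S.card + 3).ascFactorial k : ℕ) * ((Sᶜ.card + 1).ascFactorial (J.card - k) : ℕ)) * L S)
  have h1 : ∀ ε ∈ Std A B, (1 - 6 * (-1) ^ QQ a ε 1) * φD ε +
        (-1) ^ QQ a ε 1 * (2 * QQ a ε 1 - 5) * φL ε =
        (fun S K => F S (Finset.card K)) (sH pos ε) (sJ J ε) := by
    intro ε hε
    rw [hD ε hε, hL ε hε, QQ_std C a0 b0 haJ ha hε]
    simp only [F, Nat.cast_add, hT]
    ring
  rw [Finset.sum_congr rfl h1, sum_std C hA hB hAB (fun S K => F S (Finset.card K))]
  have h2 : ∀ S : Finset H, ∑ K ∈ J.powerset, F S K.card =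
      ∑ k ∈ Finset.range (J.card + 1), ((J.card.choose k : ℕ) : ℚ) * F S k := by
    intro S
    rw [Finset.sum_powerset_apply_card]
    simp only [nsmul_eq_mul]
  rw [Finset.sum_congr rfl fun S _ => h2 S, mul_add, mul_sub, Finset.mul_sum, Finset.mul_sum,
    Finset.mul_sum, Finset.mul_sum, Finset.mul_sum, ← Finset.sum_sub_distrib,
    ← Finset.sum_add_distrib]
  apply Finset.sum_congr rfl
  intro S _
  have h3 : Fintype.card H + 4 = (S.card + 2) + (Sᶜ.card + 2) := by
    have := Finset.card_add_card_compl S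
    omega
  rw [h3, ← vdm _ _ hJ2, Finset.sum_mul, Finset.mul_sum, Finset.mul_sum, Finset.mul_sum,
    Finset.mul_sum, ← Finset.sum_sub_distrib, ← Finset.sum_add_distrib]
  apply Finset.sum_congr rfl
  intro k _
  simp only [F]
  ring

end Vale.Agent.P273.D14.H118
end
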