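import Vale.Agent.P273.D14.H118.Ev2

/-!
The sum over the placements of the legs is a sum over the subsets of the half-edges and over the
subsets of the forgotten legs.
-/

noncomputable section
namespace Vale.Agent.P273.D14.H118
open Sum Vale.Agent.P273
open scoped Classical

variable {M H : Type} {A B : Bool → M} {pos : H → M} {J : Finset M}

/-- The positions: the legs `A t`, `B t`, the half-edges `pos y`, and the forgotten legs `J`. -/
structure Cov (A B : Bool → M) (pos : H → M) (J : Finset M) : Prop where
  inj : pos.Injective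
  neA : ∀ y t, pos y ≠ A t
  neB : ∀ y t, pos y ≠ B t
  neJ : ∀ y, pos y ∉ J
  jA : ∀ t, A t ∉ J
  jB : ∀ t, B t ∉ J
  cov : ∀ z, (∃ t, z = A t) ∨ (∃ t, z = B t) ∨ (∃ y, pos y = z) ∨ z ∈ J

/-- The half-edges at the vertex `1`. -/
def sH [Fintype H] (pos : H → M) (ε : M → Fin 2) : Finset H := Finset.univ.filter fun y => ε (pos y) = 1

/-- The forgotten legs at the vertex `1`. -/
def sJ (J : Finset M) (ε : M → Fin 2) : Finset M := J.filter fun z => ε z = 1

lemma fin2_zero {a : Fin 2} (h : a ≠ 1) : a = 0 := by omega

theorem sum_std [Fintype M] [Fintype H] (C : Cov A B pos J) (hA : A false ≠ A true)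
    (hB : B false ≠ B true) (hAB : ∀ i j, A i ≠ B j) (F : Finset H → Finset M → ℚ) :
    ∑ ε ∈ Std A B, F (sH pos ε) (sJ J ε) = ∑ S : Finset H, ∑ K ∈ J.powerset, F S K := by
  rw [← Finset.sum_product']
  refine Finset.sum_nbij' (fun ε => (sH pos ε, sJ J ε)) (fun p z =>
    if z = A false ∨ z = B false ∨ (∃ y ∈ p.1, pos y = z) ∨ z ∈ p.2 then 1 else 0) ?_ ?_ ?_ ?_ ?_
  · intro ε _
    simp only [Finset.mem_product, Finset.mem_univ, true_and, Finset.mem_powerset]
    exact Finset.filter_subset _ _
  · rintro ⟨S, K⟩ hp
    simp only [Finset.mem_product, Finset.mem_univ, true_and, Finset.mem_powerset] at hp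
    rw [Std, Finset.mem_filter]
    refine ⟨Finset.mem_univ _, if_pos (Or.inl rfl), if_neg ?_, if_pos (Or.inr (Or.inl rfl)),
      if_neg ?_⟩
    · rintro (h | h | ⟨y, _, h⟩ | h)
      · exact hA h.symm
      · exact hAB _ _ h
      · exact C.neA _ _ h
      · exact C.jA _ (hp h)
    · rintro (h | h | ⟨y, _, h⟩ | h)
      · exact hAB _ _ h.symm
      · exact hB h.symm
      · exact C.neB _ _ h
      · exact C.jB _ (hp h)
  · intro ε hε
    simp only [Std, Finset.mem_filter, Finset.mem_univ, true_and] at hε
    funext z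
    dsimp only
    have key : (z = A false ∨ z = B false ∨ (∃ y ∈ sH pos ε, pos y = z) ∨ z ∈ sJ J ε) ↔
        ε z = 1 := by
      constructor
      · rintro (rfl | rfl | ⟨y, h, rfl⟩ | h)
        · exact hε.1
        · exact hε.2.2.1
        · simpa [sH] using h
        · simp only [sJ, Finset.mem_filter] at h
          exact h.2
      · intro h
        rcases C.cov z with ⟨t, rfl⟩ | ⟨t, rfl⟩ | ⟨y, rfl⟩ | hz
        · cases t
          · exact Or.inl rfl
          · rw [hε.2.1] at h
            exact absurd h (by decide)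
        · cases t
          · exact Or.inr (Or.inl rfl)
          · rw [hε.2.2.2] at h
            exact absurd h (by decide)
        · exact Or.inr (Or.inr (Or.inl ⟨y, by simpa [sH] using h, rfl⟩))
        · exact Or.inr (Or.inr (Or.inr (by simp only [sJ, Finset.mem_filter]; exact ⟨hz, h⟩)))
    by_cases h : ε z = 1
    · rw [if_pos (key.2 h), h]
    · rw [if_neg (fun h' => h (key.1 h')), fin2_zero h]
  · rintro ⟨S, K⟩ hp
    simp only [Finset.mem_product, Finset.mem_univ, true_and, Finset.mem_powerset] at hp
    ext z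
    · simp only [sH, Finset.mem_filter, Finset.mem_univ, true_and]
      constructor
      · intro h
        by_contra hz
        rw [if_neg] at h
        · exact absurd h (by decide)
        · rintro (h1 | h1 | ⟨y, h2, h1⟩ | h1)
          · exact C.neA _ _ h1
          · exact C.neB _ _ h1
          · rw [C.inj h1] at h2
            exact hz h2
          · exact C.neJ _ (hp h1)
      · intro h
        rw [if_pos (Or.inr (Or.inr (Or.inl ⟨z, h, rfl⟩)))]
    · simp only [sJ, Finset.mem_filter]
      constructor
      · rintro ⟨h1, h⟩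
        by_contra hz
        rw [if_neg] at h
        · exact absurd h (by decide)
        · rintro (h2 | h2 | ⟨y, h2, h3⟩ | h2)
          · rw [h2] at h1
            exact C.jA _ h1
          · rw [h2] at h1
            exact C.jB _ h1
          · rw [← h3] at h1
            exact C.neJ _ h1
          · exact hz h2
      · intro h
        exact ⟨hp h, by rw [if_pos (Or.inr (Or.inr (Or.inr h)))]⟩
  · intro ε _
    rfl

/-- The number of exponents at the vertex `1`. -/
theorem QQ_std [Fintype M] [Fintype H] [DecidableEq H] (C : Cov A B pos J)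
    {a : M → ℕ} (a0 : a (A false) = 0) (b0 : a (B false) = 0) (haJ : ∀ z ∈ J, a z = 1)
    (ha : ∀ z, a z ≤ 1) {ε : M → Fin 2} (hε : ε ∈ Std A B) :
    QQ a ε 1 = ((sH pos ε) ∩ Finset.univ.filter fun y => a (pos y) = 1).card + (sJ J ε).card := by
  simp only [Std, Finset.mem_filter, Finset.mem_univ, true_and] at hε
  have h1 : QQ a ε 1 = (Finset.univ.filter fun z => ε z = 1 ∧ a z = 1).card := by
    unfold QQ
    rw [Finset.card_filter]
    apply Finset.sum_congr rfl
    intro z _
    have := ha z
    by_cases h : ε z = 1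
    · rw [if_pos h]
      by_cases h' : a z = 1
      · rw [if_pos ⟨h, h'⟩, h']
      · rw [if_neg (fun h'' => h' h''.2)]
        omega
    · rw [if_neg h, if_neg (fun h'' => h h''.1)]
  have h2 : (Finset.univ.filter fun z => ε z = 1 ∧ a z = 1) =
      ((sH pos ε) ∩ Finset.univ.filter fun y => a (pos y) = 1).image pos ∪ sJ J ε := by
    ext z
    simp only [Finset.mem_filter, Finset.mem_univ, true_and, Finset.mem_union, Finset.mem_image,
      Finset.mem_inter, sH, sJ]
    constructor
    · rintro ⟨h, h'⟩
      rcases C.cov z with ⟨t, rfl⟩ | ⟨t, rfl⟩ | ⟨y, rfl⟩ | hz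
      · cases t
        · rw [a0] at h'
          exact absurd h' (by decide)
        · rw [hε.2.1] at h
          exact absurd h (by decide)
      · cases t
        · rw [b0] at h'
          exact absurd h' (by decide)
        · rw [hε.2.2.2] at h
          exact absurd h (by decide)
      · exact Or.inl ⟨y, ⟨h, h'⟩, rfl⟩
      · exact Or.inr ⟨hz, h⟩
    · rintro (⟨y, ⟨h, h'⟩, rfl⟩ | ⟨hz, h⟩)
      · exact ⟨h, h'⟩
      · exact ⟨h, haJ z hz⟩
  rw [h1, h2, Finset.card_union_of_disjoint, Finset.card_image_of_injective _ C.inj]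
  rw [Finset.disjoint_left]
  intro z hz hz'
  rw [Finset.mem_image] at hz
  obtain ⟨y, _, rfl⟩ := hz
  exact C.neJ y (Finset.mem_filter.1 hz').1

end Vale.Agent.P273.D14.H118
end
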