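import Vale.Agent.P273.D14.H118.Eval2

/-!
The weights of the graphs with two vertices in the relation of degree two in genus one.
-/

noncomputable section
namespace Vale.Agent.P273.D14.H118
open Sum Vale.Agent.P273 Vale.Agent.P273.D14.H18
open scoped Classical
open Alg

variable {V E M : Type}

lemma three_le_nv [Finite E] [Finite M] (G : Gr V E M) (w : V) {x y : M} (hxy : x ≠ y)
    (z : E × Bool) (hx : (G.hf (inr x)).1 = w) (hy : (G.hf (inr y)).1 = w)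
    (hz : (G.hf (inl z)).1 = w) : 3 ≤ G.nv w := by
  unfold Gr.nv
  have hf : Function.Injective (fun i : Fin 3 =>
      (![⟨inr x, hx⟩, ⟨inr y, hy⟩, ⟨inl z, hz⟩] : Fin 3 → {y // (G.hf y).1 = w}) i) := by
    intro i j hij
    fin_cases i <;> fin_cases j <;> simp_all
  have := Nat.card_le_card_of_injective _ hf
  simpa using this

lemma stab2 [Finite M] {m : ℕ} (G : Gr (Fin 2) (Fin m) M) (e : Fin m)
    (he : (G.hf (inl (e, true))).1 ≠ (G.hf (inl (e, false))).1)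
    (hg : (G.dec 0).1 + (G.dec 1).1 + m = 2)
    (hl : ∀ w, ∃ x y : M, x ≠ y ∧ (G.hf (inr x)).1 = w ∧ (G.hf (inr y)).1 = w) :
    G.Stab 1 := by
  have hside : ∀ w : Fin 2, ∃ s, (G.hf (inl (e, s))).1 = w := by
    have key : ∀ p q : Fin 2, p ≠ q → ∀ w, p = w ∨ q = w := by decide
    intro w
    rcases key _ _ he w with h | h
    · exact ⟨true, h⟩
    · exact ⟨false, h⟩
  refine ⟨⟨0⟩, ?_, ?_, ?_⟩
  · intro s hs
    have h1 := hs e
    have h2 : (0 : Fin 2) ∈ s ↔ (1 : Fin 2) ∈ s := by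
      obtain ⟨b0, hb0⟩ := hside 0
      obtain ⟨b1, hb1⟩ := hside 1
      cases b0 <;> cases b1
      · rw [hb0] at hb1
        exact absurd hb1 (by decide)
      · rw [← hb0, ← hb1]
        exact h1.symm
      · rw [← hb0, ← hb1]
        exact h1
      · rw [hb0] at hb1
        exact absurd hb1 (by decide)
    by_cases h0 : (0 : Fin 2) ∈ s
    · right
      ext i
      fin_cases i
      · simpa using h0
      · simpa using h2.mp h0
    · left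
      ext i
      fin_cases i
      · simpa using h0
      · simpa using fun h => h0 (h2.mpr h)
  · rw [finsum_eq_sum_of_fintype, Fin.sum_univ_two, Nat.card_eq_fintype_card,
      Nat.card_eq_fintype_card, Fintype.card_fin, Fintype.card_fin]
    omega
  · intro w
    obtain ⟨x, y, hxy, hx, hy⟩ := hl w
    obtain ⟨b, hb⟩ := hside w
    have := three_le_nv G w hxy (e, b) hx hy hb
    omega

variable [Fintype M]

lemma deg_fT4 (e1 e2 e3 e4 : Fin 2) (ε : M → Fin 2) : (fT4 e1 e2 e3 e4 ε).deg = 2 := by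
  unfold Gr.deg
  rw [finsum_eq_sum_of_fintype, finsum_eq_sum_of_fintype, Fintype.sum_sum_type]
  simp [fT4]

lemma deg_fT3 (v e1 e2 : Fin 2) (ε : M → Fin 2) (δ : Option (Bool ⊕ M)) :
    (fT3 v e1 e2 ε δ).deg = 2 := by
  unfold Gr.deg
  rw [finsum_eq_sum_of_fintype, finsum_eq_sum_of_fintype, Fintype.sum_sum_type,
    Fin.sum_univ_two, Fintype.sum_prod_type, Fintype.sum_subsingleton _ (0 : Fin 1),
    Fintype.sum_bool]
  rcases δ with _ | s | x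
  · fin_cases v <;> simp [fT3]
  · cases s <;> simp [fT3]
  · simp [fT3]

/-- the number of legs with `a = 1` at the vertex `w` -/
def QQ (a : M → ℕ) (ε : M → Fin 2) (w : Fin 2) : ℕ := ∑ x, if ε x = w then a x else 0

lemma QQ_add (a : M → ℕ) (ε : M → Fin 2) : QQ a ε 0 + QQ a ε 1 = ∑ x, a x := by
  unfold QQ
  rw [← Finset.sum_add_distrib]
  apply Finset.sum_congr rfl
  intro x _
  have : ε x = 0 ∨ ε x = 1 := by
    have : ∀ w : Fin 2, w = 0 ∨ w = 1 := by decide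
    exact this _
  rcases this with h | h <;> simp [h]

lemma prod_QQ (a : M → ℕ) (ε : M → Fin 2) (s : Fin 2 → ℚ) :
    ∏ x, s (ε x) ^ a x = s 0 ^ QQ a ε 0 * s 1 ^ QQ a ε 1 := by
  unfold QQ
  rw [← Finset.prod_pow_eq_pow_sum, ← Finset.prod_pow_eq_pow_sum, ← Finset.prod_mul_distrib]
  apply Finset.prod_congr rfl
  intro x _
  have : ε x = 0 ∨ ε x = 1 := by
    have : ∀ w : Fin 2, w = 0 ∨ w = 1 := by decide
    exact this _
  rcases this with h | h <;> simp [h]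

lemma kapF_zero (ζ : ℚ) : kapF 0 ζ = 1 := by
  simp [kapF]

lemma kapF_one (ζ : ℚ) : kapF {1} ζ = 60 * ζ := by
  simp [kapF, B_zero_one]

lemma wsum_fT4 (a : M → ℕ) (e1 e2 e3 e4 : Fin 2) (ε : M → Fin 2) (s : Fin 2 → ℚ)
    (hs : ∀ i, s i ^ 2 = 1) : wsum (fT4 e1 e2 e3 e4 ε) a s =
      s 0 * s 1 * ((60 * (s e1 * s e2) - 84) * (60 * (s e3 * s e4) - 84)) *
        (s 0 ^ QQ a ε 0 * s 1 ^ QQ a ε 1) := by
  unfold wsum
  rw [finprod_eq_prod_of_fintype, finprod_eq_prod_of_fintype, finprod_eq_prod_of_fintype,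
    Fin.prod_univ_two, Fin.prod_univ_two]
  have h1 : ∀ v, (fT4 e1 e2 e3 e4 ε).dec v = (0, 0) := fun _ => rfl
  have h2 : ∀ y, ((fT4 e1 e2 e3 e4 ε).hf y).2 = 0 := by
    rintro (y | y) <;> rfl
  have h3 : ∀ x, ((fT4 e1 e2 e3 e4 ε).hf (inr x)).1 = ε x := fun _ => rfl
  simp only [h1, h2, h3, kapF_zero, B_at_zero, edgeF_zero _ _ (hs _)]
  rw [prod_QQ]
  simp [fT4]

lemma edgeF_one {ζ ξ : ℚ} (hζ : ζ ^ 2 = 1) : edgeF (ζ, 1) (ξ, 0) = 32760 * ζ - 27720 * ξ := by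
  rw [edgeF_eq]
  simp only [zero_add, Finset.sum_range_one, pow_zero, Nat.sub_zero, add_zero]
  unfold TT
  have h1 : B 0 ζ 2 = 27720 * ζ ^ 2 := by
    simp only [B]
    norm_num [Nat.factorial]
    ring
  have h2 : B 1 ζ 2 = -32760 * ζ ^ 3 := by
    simp only [B]
    norm_num [Nat.factorial]
    ring
  simp only [Nat.reduceAdd]
  rw [h1, h2, B_one_zero, B_zero_zero]
  linear_combination (-27720 * ξ + 32760 * ζ) * hζ

lemma wsum_fT3_none (a : M → ℕ) (e1 e2 : Fin 2) (ε : M → Fin 2) (s : Fin 2 → ℚ)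
    (hs : ∀ i, s i ^ 2 = 1) : wsum (fT3 1 e1 e2 ε none) a s =
      s 0 * (60 * s 1) * (60 * (s e1 * s e2) - 84) * (s 0 ^ QQ a ε 0 * s 1 ^ QQ a ε 1) := by
  unfold wsum
  rw [finprod_eq_prod_of_fintype, finprod_eq_prod_of_fintype, finprod_eq_prod_of_fintype,
    Fin.prod_univ_two, Fintype.prod_subsingleton _ (0 : Fin 1)]
  have h1 : (fT3 1 e1 e2 ε none).dec 1 = (1, {1}) := by simp [fT3]
  have h0 : (fT3 1 e1 e2 ε none).dec 0 = (0, 0) := by simp [fT3]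
  have h2 : ∀ y, ((fT3 1 e1 e2 ε none).hf y).2 = 0 := by
    rintro (y | y) <;> simp [fT3]
  have h3 : ∀ x, ((fT3 1 e1 e2 ε none).hf (inr x)).1 = ε x := fun _ => rfl
  simp only [h1, h0, h2, h3, kapF_zero, kapF_one, B_at_zero, edgeF_zero _ _ (hs _)]
  rw [prod_QQ]
  have h4 : ((fT3 1 e1 e2 ε none).hf (inl (0, true))).1 = e1 := rfl
  have h5 : ((fT3 1 e1 e2 ε none).hf (inl (0, false))).1 = e2 := rfl
  rw [h4, h5]
  linear_combination (s 0 * (60 * s 1) * (60 * (s e1 * s e2) - 84) *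
    (s 0 ^ QQ a ε 0 * s 1 ^ QQ a ε 1)) * hs 1

lemma wsum_fT3_inr {a : M → ℕ} (ha : ∀ x, a x ≤ 1) (e1 e2 : Fin 2) (ε : M → Fin 2)
    (s : Fin 2 → ℚ) (hs : ∀ i, s i ^ 2 = 1) (x : M) : wsum (fT3 1 e1 e2 ε (some (inr x))) a s =
      s 0 * (60 * (s e1 * s e2) - 84) * ((144 * a x - 60) * s (ε x)) *
        (s 0 ^ QQ a ε 0 * s 1 ^ QQ a ε 1) := by
  unfold wsum
  rw [finprod_eq_prod_of_fintype, finprod_eq_prod_of_fintype, finprod_eq_prod_of_fintype,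
    Fin.prod_univ_two, Fintype.prod_subsingleton _ (0 : Fin 1)]
  have h1 : (fT3 1 e1 e2 ε (some (inr x))).dec 1 = (1, 0) := by simp [fT3]
  have h0 : (fT3 1 e1 e2 ε (some (inr x))).dec 0 = (0, 0) := by simp [fT3]
  have h2 : ∀ y, ((fT3 1 e1 e2 ε (some (inr x))).hf (inl y)).2 = 0 := by
    intro y; simp [fT3]
  have h4 : ((fT3 1 e1 e2 ε (some (inr x))).hf (inl (0, true))).1 = e1 := rfl
  have h5 : ((fT3 1 e1 e2 ε (some (inr x))).hf (inl (0, false))).1 = e2 := rfl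
  have h6 : ∀ z, B (a z) (s ((fT3 1 e1 e2 ε (some (inr x))).hf (inr z)).1)
      ((fT3 1 e1 e2 ε (some (inr x))).hf (inr z)).2 = s (ε z) ^ a z *
        if z = x then (144 * a x - 60) * s (ε x) else 1 := by
    intro z
    have e1' : ((fT3 1 e1 e2 ε (some (inr x))).hf (inr z)) = (ε z, if z = x then 1 else 0) := by
      simp only [fT3, Sum.elim_inr, Option.some.injEq, Sum.inr.injEq, Prod.mk.injEq, true_and]
      by_cases hzx : z = x
      · subst hzx; simp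
      · rw [if_neg hzx, if_neg (Ne.symm hzx)]
    rw [e1']
    by_cases hzx : z = x
    · subst hzx
      simp only [if_true]
      have := ha z
      interval_cases h : a z
      · rw [B_zero_one]; push_cast; ring
      · rw [B_one_one]; push_cast; ring
    · simp only [if_neg hzx, B_at_zero, mul_one]
  simp only [h1, h0, h2, h4, h5, h6, kapF_zero, edgeF_zero _ _ (hs _)]
  rw [Finset.prod_mul_distrib, prod_QQ, Finset.prod_ite_eq' Finset.univ x]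
  simp only [Finset.mem_univ, if_true]
  linear_combination (s 0 * (60 * (s e1 * s e2) - 84) * ((144 * a x - 60) * s (ε x)) *
        (s 0 ^ QQ a ε 0 * s 1 ^ QQ a ε 1)) * hs 1

lemma wsum_fT3_inl (a : M → ℕ) (e1 e2 : Fin 2) (ε : M → Fin 2) (s : Fin 2 → ℚ)
    (hs : ∀ i, s i ^ 2 = 1) (b : Bool) : wsum (fT3 1 e1 e2 ε (some (inl b))) a s =
      s 0 * (32760 * s (if b then e1 else e2) - 27720 * s (if b then e2 else e1)) *
        (s 0 ^ QQ a ε 0 * s 1 ^ QQ a ε 1) := by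
  unfold wsum
  rw [finprod_eq_prod_of_fintype, finprod_eq_prod_of_fintype, finprod_eq_prod_of_fintype,
    Fin.prod_univ_two, Fintype.prod_subsingleton _ (0 : Fin 1)]
  have h1 : (fT3 1 e1 e2 ε (some (inl b))).dec 1 = (1, 0) := by simp [fT3]
  have h0 : (fT3 1 e1 e2 ε (some (inl b))).dec 0 = (0, 0) := by simp [fT3]
  have h2 : ∀ x, ((fT3 1 e1 e2 ε (some (inl b))).hf (inr x)) = (ε x, 0) := by
    intro x; simp [fT3]
  have h4 : ((fT3 1 e1 e2 ε (some (inl b))).hf (inl (0, true))) = (e1, if b then 1 else 0) := by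
    cases b <;> simp [fT3]
  have h5 : ((fT3 1 e1 e2 ε (some (inl b))).hf (inl (0, false))) = (e2, if b then 0 else 1) := by
    cases b <;> simp [fT3]
  simp only [h1, h0, h2, h4, h5, kapF_zero, B_at_zero]
  rw [prod_QQ]
  have h7 : edgeF (s e1, if b = true then 1 else 0) (s e2, if b = true then 0 else 1) =
      32760 * s (if b then e1 else e2) - 27720 * s (if b then e2 else e1) := by
    cases b
    · simp only [Bool.false_eq_true, if_false]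
      rw [edgeF_symm (hs _) (hs _), edgeF_one (hs _)]
    · simp only [if_true]
      rw [edgeF_one (hs _)]
  rw [h7]
  linear_combination (s 0 * (32760 * s (if b then e1 else e2) -
    27720 * s (if b then e2 else e1)) * (s 0 ^ QQ a ε 0 * s 1 ^ QQ a ε 1)) * hs 1

/-- the sum over the signs of the two vertices -/
lemma wt_signs {m : ℕ} (G : Gr (Fin 2) (Fin m) M) (a : M → ℕ) (ε : M → Fin 2)
    (hp : Even (∑ x, a x)) (hst : G.Stab 1) (hd : G.deg = 2) (F : (Fin 2 → ℚ) → ℚ)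
    (hF : ∀ s : Fin 2 → ℚ, (∀ i, s i ^ 2 = 1) →
      wsum G a s = F s * (s 0 ^ QQ a ε 0 * s 1 ^ QQ a ε 1)) :
    wt G 1 a 2 = (1 / 2) ^ (m + 1) * (F ![1, 1] + F ![-1, -1] +
      (-1) ^ QQ a ε 1 * (F ![1, -1] + F ![-1, 1])) := by
  rw [wt_eq_wsum, if_pos ⟨hst, hd⟩, finsum_eq_sum_of_fintype, Nat.card_eq_fintype_card,
    Fintype.card_fin]
  have h1 : ∀ ζ : Fin 2 → Bool, (fun v => sg (ζ v)) = ![sg (ζ 0), sg (ζ 1)] := by
    intro ζ
    funext v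
    fin_cases v <;> rfl
  have h2 : ∀ ζ : Fin 2 → Bool, wsum G a (fun v => sg (ζ v)) =
      F ![sg (ζ 0), sg (ζ 1)] * (sg (ζ 0) ^ QQ a ε 0 * sg (ζ 1) ^ QQ a ε 1) := by
    intro ζ
    rw [hF _ (fun i => sg_sq _), h1]
  simp_rw [h2]
  rw [← Equiv.sum_comp (finTwoArrowEquiv Bool).symm, Fintype.sum_prod_type, Fintype.sum_bool,
    Fintype.sum_bool, Fintype.sum_bool]
  have e1 : sg true = 1 := rfl
  have e2 : sg false = -1 := rfl
  simp only [finTwoArrowEquiv_symm_apply, Matrix.cons_val_zero, Matrix.cons_val_one, e1, e2,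
    one_pow, one_mul, mul_one]
  rw [← QQ_add a ε] at hp
  have p1 : (-1 : ℚ) ^ QQ a ε 0 * (-1) ^ QQ a ε 1 = 1 := by
    rw [← pow_add, hp.neg_one_pow]
  have p2 : (-1 : ℚ) ^ QQ a ε 0 = (-1) ^ QQ a ε 1 := by
    rcases Nat.even_or_odd (QQ a ε 1) with h | h
    · rw [h.neg_one_pow, ((Nat.even_add.mp hp).mpr h).neg_one_pow]
    · have h0 : Odd (QQ a ε 0) := by
        rw [← Nat.not_even_iff_odd] at h ⊢
        exact fun h' => h ((Nat.even_add.mp hp).mp h')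
      rw [h.neg_one_pow, h0.neg_one_pow]
  rw [p1, p2]
  ring

lemma fin2_ne {e1 e2 : Fin 2} (h : e1 ≠ e2) : (e1 = 0 ∧ e2 = 1) ∨ (e1 = 1 ∧ e2 = 0) := by
  revert e1 e2
  decide

lemma wt_D (a : M → ℕ) {e1 e2 e3 e4 : Fin 2} (ε : M → Fin 2) (hp : Even (∑ x, a x))
    (hst : (fT4 e1 e2 e3 e4 ε).Stab 1) (h12 : e1 ≠ e2) (h34 : e3 ≠ e4) :
    wt (fT4 e1 e2 e3 e4 ε) 1 a 2 = 144 - 5184 * (-1) ^ QQ a ε 1 := by
  rw [wt_signs (fT4 e1 e2 e3 e4 ε) a ε hp hst (deg_fT4 _ _ _ _ _)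
    (fun s => s 0 * s 1 * ((60 * (s e1 * s e2) - 84) * (60 * (s e3 * s e4) - 84)))
    (fun s hs => wsum_fT4 a e1 e2 e3 e4 ε s hs)]
  rcases fin2_ne h12 with ⟨rfl, rfl⟩ | ⟨rfl, rfl⟩ <;>
    rcases fin2_ne h34 with ⟨rfl, rfl⟩ | ⟨rfl, rfl⟩ <;>
    simp only [Matrix.cons_val_zero, Matrix.cons_val_one] <;> ring

lemma wt_L (a : M → ℕ) {e1 e2 e3 : Fin 2} (ε : M → Fin 2) (hp : Even (∑ x, a x))
    (hst : (fT4 e1 e1 e2 e3 ε).Stab 1) (h34 : e2 ≠ e3) :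
    wt (fT4 e1 e1 e2 e3 ε) 1 a 2 = 144 - 864 * (-1) ^ QQ a ε 1 := by
  rw [wt_signs (fT4 e1 e1 e2 e3 ε) a ε hp hst (deg_fT4 _ _ _ _ _)
    (fun s => s 0 * s 1 * ((60 * (s e1 * s e1) - 84) * (60 * (s e2 * s e3) - 84)))
    (fun s hs => wsum_fT4 a e1 e1 e2 e3 ε s hs)]
  fin_cases e1 <;>
    rcases fin2_ne h34 with ⟨rfl, rfl⟩ | ⟨rfl, rfl⟩ <;>
    simp only [Fin.zero_eta, Fin.mk_one, Matrix.cons_val_zero, Matrix.cons_val_one] <;> ring

lemma wt_L' (a : M → ℕ) {e1 e2 e3 : Fin 2} (ε : M → Fin 2) (hp : Even (∑ x, a x))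
    (hst : (fT4 e2 e3 e1 e1 ε).Stab 1) (h34 : e2 ≠ e3) :
    wt (fT4 e2 e3 e1 e1 ε) 1 a 2 = 144 - 864 * (-1) ^ QQ a ε 1 := by
  rw [wt_signs (fT4 e2 e3 e1 e1 ε) a ε hp hst (deg_fT4 _ _ _ _ _)
    (fun s => s 0 * s 1 * ((60 * (s e2 * s e3) - 84) * (60 * (s e1 * s e1) - 84)))
    (fun s hs => wsum_fT4 a e2 e3 e1 e1 ε s hs)]
  fin_cases e1 <;>
    rcases fin2_ne h34 with ⟨rfl, rfl⟩ | ⟨rfl, rfl⟩ <;>
    simp only [Fin.zero_eta, Fin.mk_one, Matrix.cons_val_zero, Matrix.cons_val_one] <;> ring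

lemma wt_3none (a : M → ℕ) {e1 e2 : Fin 2} (ε : M → Fin 2) (hp : Even (∑ x, a x))
    (hst : (fT3 1 e1 e2 ε none).Stab 1) (h12 : e1 ≠ e2) :
    wt (fT3 1 e1 e2 ε none) 1 a 2 = -720 + 4320 * (-1) ^ QQ a ε 1 := by
  rw [wt_signs (fT3 1 e1 e2 ε none) a ε hp hst (deg_fT3 _ _ _ _ _)
    (fun s => s 0 * (60 * s 1) * (60 * (s e1 * s e2) - 84))
    (fun s hs => wsum_fT3_none a e1 e2 ε s hs)]
  rcases fin2_ne h12 with ⟨rfl, rfl⟩ | ⟨rfl, rfl⟩ <;>
    simp only [Matrix.cons_val_zero, Matrix.cons_val_one] <;> ring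

lemma wt_3inr {a : M → ℕ} (ha : ∀ x, a x ≤ 1) {e1 e2 : Fin 2} (ε : M → Fin 2)
    (hp : Even (∑ x, a x)) (x : M)
    (hst : (fT3 1 e1 e2 ε (some (inr x))).Stab 1) (h12 : e1 ≠ e2) (hx : ε x = 1) :
    wt (fT3 1 e1 e2 ε (some (inr x))) 1 a 2 =
      (144 * a x - 60) * (-12 + 72 * (-1) ^ QQ a ε 1) := by
  rw [wt_signs (fT3 1 e1 e2 ε (some (inr x))) a ε hp hst (deg_fT3 _ _ _ _ _)
    (fun s => s 0 * (60 * (s e1 * s e2) - 84) * ((144 * a x - 60) * s (ε x)))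
    (fun s hs => wsum_fT3_inr ha e1 e2 ε s hs x)]
  rw [hx]
  rcases fin2_ne h12 with ⟨rfl, rfl⟩ | ⟨rfl, rfl⟩ <;>
    simp only [Matrix.cons_val_zero, Matrix.cons_val_one] <;> ring

lemma wt_3inl (a : M → ℕ) {e1 e2 : Fin 2} (ε : M → Fin 2) (hp : Even (∑ x, a x)) (b : Bool)
    (hst : (fT3 1 e1 e2 ε (some (inl b))).Stab 1) (h12 : e1 ≠ e2)
    (hb : (if b then e1 else e2) = 1) :
    wt (fT3 1 e1 e2 ε (some (inl b))) 1 a 2 = 2520 - 30240 * (-1) ^ QQ a ε 1 := by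
  rw [wt_signs (fT3 1 e1 e2 ε (some (inl b))) a ε hp hst (deg_fT3 _ _ _ _ _)
    (fun s => s 0 * (32760 * s (if b then e1 else e2) - 27720 * s (if b then e2 else e1)))
    (fun s hs => wsum_fT3_inl a e1 e2 ε s hs b)]
  rw [hb]
  have hb' : (if b then e2 else e1) = 0 := by
    rcases fin2_ne h12 with ⟨rfl, rfl⟩ | ⟨rfl, rfl⟩ <;> cases b <;> simp_all
  rw [hb']
  simp only [Matrix.cons_val_zero, Matrix.cons_val_one]
  ring

end Vale.Agent.P273.D14.H118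
end
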